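import Vale.Agent.N309X.Col

/-!
# P309: learners that work in blocks
-/

namespace Vale.Agent.N309X

open MeasureTheory ProbabilityTheory Set P309
open scoped ENNReal RealInnerProductSpace

theorem resample_fin {α : Type} [MeasurableSpace α] {n : ℕ} (μ : Measure α)
    [IsProbabilityMeasure μ] (j : Fin n) {F : (Fin n → α) × α → ℝ≥0∞} (hF : Measurable F)
    (h : ∀ x y z, F (Function.update x j y, z) = F (x, z)) :
    ∫⁻ x, F (x, x j) ∂(Measure.pi fun _ => μ) =
      ∫⁻ y, ∫⁻ x, F (x, y) ∂(Measure.pi fun _ => μ) ∂μ := by
  have mp : MeasurePreserving (fun p : (Fin n → α) × α => Function.update p.1 j p.2)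
      ((Measure.pi fun _ => μ).prod μ) (Measure.pi fun _ => μ) := by
    refine ⟨measurable_update', (Measure.pi_eq fun s hs => ?_).symm⟩
    rw [Measure.map_apply measurable_update' (MeasurableSet.univ_pi hs)]
    have e : (fun p : (Fin n → α) × α => Function.update p.1 j p.2) ⁻¹' univ.pi s =
        (univ.pi fun c => if c = j then univ else s c) ×ˢ s j := by
      ext p
      simp only [mem_preimage, mem_pi, mem_univ, true_implies, mem_prod]
      refine ⟨fun h => ⟨fun c => ?_, by simpa using h j⟩, fun h c => ?_⟩
      · split_ifs with hc
        · trivial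
        · simpa [Function.update_of_ne hc] using h c
      · by_cases hc : c = j
        · subst hc
          simpa using h.2
        · simpa [Function.update_of_ne hc, hc] using h.1 c
    rw [e, Measure.prod_prod, Measure.pi_pi, ← Finset.mul_prod_erase _ _ (Finset.mem_univ j),
      ← Finset.mul_prod_erase _ (fun l => μ (s l)) (Finset.mem_univ j)]
    simp only [if_true, measure_univ, one_mul]
    rw [mul_comm]
    congr 1
    refine Finset.prod_congr rfl fun l hl => ?_
    rw [if_neg (Finset.ne_of_mem_erase hl)]
  have hG : Measurable fun x : Fin n → α => F (x, x j) :=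
    hF.comp (measurable_id.prodMk (measurable_pi_apply j))
  rw [← mp.lintegral_comp hG]
  simp only [Function.update_self, h]
  exact lintegral_prod_symm _ hF.aemeasurable

variable {d n : ℕ} {Z A : Type} [MeasurableSpace A]

open Classical in
/-- failure probability of a block learner with `J` more blocks, at block `j`, in the state `z` -/
noncomputable def lose (sym : ℕ → Z → Vec d × ℝ → A) (upd : ℕ → Z → (Fin n → A) → Z)
    (out : Z → P309.Sph d) (ε : ℝ) (s : Vec d) : ℕ → ℕ → Z → ℝ≥0∞
  | 0, _, z => if Real.arccos ⟪(out z : Vec d), s⟫ ≤ ε then 0 else 1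
  | J + 1, j, z => ∫⁻ G, lose sym upd out ε s J (j + 1)
      (upd j z fun i => sym j z (G i, ⟪G i, s⟫)) ∂rows (Vec d) n

omit [MeasurableSpace A] in
theorem lose_le_one (sym : ℕ → Z → Vec d × ℝ → A) (upd : ℕ → Z → (Fin n → A) → Z)
    (out : Z → P309.Sph d) (ε : ℝ) (s : Vec d) (J : ℕ) :
    ∀ j z, lose sym upd out ε s J j z ≤ 1 := by
  induction J with
  | zero =>
    intro j z
    rw [lose]
    split_ifs <;> simp
  | succ J ih =>
    intro j z
    rw [lose]
    exact (lintegral_mono fun G => ih _ _).trans (by simp)

/-- one step of the block learner -/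
def nxt (hn : 0 < n) (upd : ℕ → Z → (Fin n → A) → Z) (t : ℕ)
    (q : Z × (Fin n → A)) (a : A) : Z × (Fin n → A) :=
  (if t % n + 1 = n then upd (t / n) q.1 (Function.update q.2 ⟨t % n, Nat.mod_lt _ hn⟩ a) else q.1,
    Function.update q.2 ⟨t % n, Nat.mod_lt _ hn⟩ a)

theorem machine [Fintype Z] [Fintype A] [MeasurableSingletonClass A] [Nonempty A] (hn : 0 < n)
    (sym : ℕ → Z → Vec d × ℝ → A) (hs : ∀ j z, Measurable (sym j z))
    (upd : ℕ → Z → (Fin n → A) → Z) (out : Z → P309.Sph d) (z₀ : Z) {N : ℕ}
    (hN : Fintype.card Z * Fintype.card A ^ n ≤ N) :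
    ∃ K : Learner (Vec d) N, K.FixedOutput ∧ ∀ (ε : ℝ) (s : Vec d) (J : ℕ),
      1 ≤ ∫⁻ q, K.win ε (J * n) 0 q s ∂K.init + lose sym upd out ε s J 0 z₀ := by
  classical
  obtain ⟨a₀⟩ := ‹Nonempty A›
  have : Nonempty (Z × (Fin n → A)) := ⟨(z₀, fun _ => a₀)⟩
  obtain ⟨enc⟩ : Nonempty (Z × (Fin n → A) ↪ Fin N) :=
    Function.Embedding.nonempty_of_card_le (by simpa using hN)
  obtain ⟨dec, hdec⟩ := enc.injective.hasLeftInverse
  have hm : ∀ t, Measurable fun p : Fin N × Vec d × ℝ =>
      (false, enc (nxt hn upd t (dec p.1) (sym (t / n) (dec p.1).1 p.2))) := fun t =>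
    measurable_from_prod_countable_right fun q =>
      (measurable_of_countable fun a => (false, enc (nxt hn upd t (dec q) a))).comp
        (hs (t / n) (dec q).1)
  let K : Learner (Vec d) N :=
    { init := Measure.dirac (enc (z₀, fun _ => a₀))
      init_prob := by infer_instance
      step := fun t => Kernel.deterministic _ (hm t)
      step_markov := fun _ => by infer_instance
      out := fun _ => Kernel.deterministic (fun q => out (dec q).1) (measurable_of_countable _)
      out_markov := fun _ => by infer_instance }
  refine ⟨K, fun _ => rfl, fun ε s J => ?_⟩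
  have hw : ∀ k t q, K.win ε (k + 1) t (enc q) s = ∫⁻ x, K.win ε k (t + 1)
      (enc (nxt hn upd t q (sym (t / n) q.1 (x, ⟪x, s⟫)))) s ∂stdGaussian (Vec d) := by
    intro k t q
    rw [Learner.win]
    refine lintegral_congr fun x => ?_
    change ∫⁻ p, _ ∂(Kernel.deterministic _ (hm t) (enc q, x, ⟪x, s⟫)) = _
    rw [Kernel.deterministic_apply, lintegral_dirac]
    simp only [Bool.false_eq_true, if_false, hdec q]
  have hx : ∀ j z, Measurable fun x : Vec d => sym j z (x, ⟪x, s⟫) := fun j z =>
    (hs j z).comp (by fun_prop)
  have key : ∀ J j q, 1 ≤ K.win ε (J * n) (j * n) (enc q) s + lose sym upd out ε s J j q.1 := by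
    intro J
    induction J with
    | zero =>
      intro j q
      rw [zero_mul, Learner.win, Learner.good, lose]
      change 1 ≤ (Kernel.deterministic (fun q => out (dec q).1) (measurable_of_countable _)
        (enc q)) _ + _
      rw [Kernel.deterministic_apply' _ _ (Upper.measurable_good s ε), hdec q]
      split_ifs with h
      · rw [indicator_of_mem (by exact h)]
        simp
      · exact le_add_self
    | succ J ih =>
      intro j
      have inner : ∀ r i, i + (r + 1) = n → ∀ z b,
          1 ≤ K.win ε (J * n + (r + 1)) (j * n + i) (enc (z, b)) s +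
            ∫⁻ G, lose sym upd out ε s J (j + 1) (upd j z fun l =>
              if (l : ℕ) < i then b l else sym j z (G l, ⟪G l, s⟫)) ∂rows (Vec d) n := by
        have step : ∀ r i (hi : i < n) z b, (∀ a, 1 ≤ K.win ε (J * n + r) (j * n + i + 1)
            (enc (nxt hn upd (j * n + i) (z, b) a)) s +
            ∫⁻ G, lose sym upd out ε s J (j + 1) (upd j z fun l =>
              if (l : ℕ) < i + 1 then Function.update b ⟨i, hi⟩ a l
              else sym j z (G l, ⟪G l, s⟫)) ∂rows (Vec d) n) →
            1 ≤ K.win ε (J * n + (r + 1)) (j * n + i) (enc (z, b)) s +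
            ∫⁻ G, lose sym upd out ε s J (j + 1) (upd j z fun l =>
              if (l : ℕ) < i then b l else sym j z (G l, ⟪G l, s⟫)) ∂rows (Vec d) n := by
          intro r i hi z b h
          have hdiv : (j * n + i) / n = j := by
            rw [add_comm, Nat.add_mul_div_right _ _ hn, Nat.div_eq_of_lt hi, zero_add]
          have hF : Measurable fun p : (Fin n → Vec d) × Vec d =>
              lose sym upd out ε s J (j + 1) (upd j z fun l =>
                if (l : ℕ) < i + 1 then Function.update b ⟨i, hi⟩ (sym j z (p.2, ⟪p.2, s⟫)) l
                else sym j z (p.1 l, ⟪p.1 l, s⟫)) := by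
            refine (measurable_of_countable fun c =>
              lose sym upd out ε s J (j + 1) (upd j z c)).comp
              (measurable_pi_lambda _ fun l => ?_)
            split_ifs
            · exact (measurable_of_countable fun a => Function.update b ⟨i, hi⟩ a l).comp
                ((hx j z).comp measurable_snd)
            · exact (hx j z).comp ((measurable_pi_apply l).comp measurable_fst)
          have h1 := resample_fin (stdGaussian (Vec d)) ⟨i, hi⟩ hF fun G y x => by
            congr 2
            funext l
            split_ifs with hl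
            · rfl
            · dsimp only
              rw [Function.update_of_ne]
              intro e
              subst e
              exact hl (Nat.lt_succ_self _)
          have h2 : ∀ G : Fin n → Vec d, (fun l : Fin n =>
              if (l : ℕ) < i then b l else sym j z (G l, ⟪G l, s⟫)) = fun l : Fin n =>
              if (l : ℕ) < i + 1 then
                Function.update b ⟨i, hi⟩ (sym j z (G ⟨i, hi⟩, ⟪G ⟨i, hi⟩, s⟫)) l
              else sym j z (G l, ⟪G l, s⟫) := fun G => by
            funext l
            by_cases e : l = ⟨i, hi⟩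
            · subst e
              simp
            · have e' : (l : ℕ) ≠ i := fun e' => e (Fin.ext e')
              rw [Function.update_of_ne e]
              by_cases hl : (l : ℕ) < i
              · rw [if_pos hl, if_pos (by omega)]
              · rw [if_neg hl, if_neg (by omega)]
          simp only [h2]
          unfold rows
          have h3 : Measurable fun x : Vec d => K.win ε (J * n + r) (j * n + i + 1)
              (enc (nxt hn upd (j * n + i) (z, b) (sym j (z, b).1 (x, ⟪x, s⟫)))) s :=
            (measurable_of_countable fun a => K.win ε (J * n + r) (j * n + i + 1)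
              (enc (nxt hn upd (j * n + i) (z, b) a)) s).comp (hx j z)
          rw [h1, ← add_assoc, hw, hdiv, ← lintegral_add_left h3]
          exact le_trans (by simp) (lintegral_mono fun x => h _)
        have hmod : ∀ i, i < n → (j * n + i) % n = i ∧ (j * n + i) / n = j := fun i hi =>
          ⟨by rw [add_comm, Nat.add_mul_mod_self_right, Nat.mod_eq_of_lt hi],
            by rw [add_comm, Nat.add_mul_div_right _ _ hn, Nat.div_eq_of_lt hi, zero_add]⟩
        intro r
        induction r with
        | zero =>
          intro i hi z b
          refine step 0 i (by omega) z b fun a => ?_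
          obtain ⟨e1, e2⟩ := hmod i (by omega)
          have e3 : ∀ l : Fin n, (l : ℕ) < i + 1 := fun l => by have := l.2; omega
          simp only [e3, if_true, lintegral_const, measure_univ, mul_one]
          have h := ih (j + 1) (nxt hn upd (j * n + i) (z, b) a)
          rw [show (j + 1) * n = j * n + i + 1 by rw [add_mul]; omega] at h
          have e4 : (nxt hn upd (j * n + i) (z, b) a).1 =
              upd j z (Function.update b ⟨i, by omega⟩ a) := by
            simp only [nxt, e1, e2, if_pos (show i + 1 = n by omega)]
          rw [e4] at h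
          exact h
        | succ r ihr =>
          intro i hi z b
          refine step (r + 1) i (by omega) z b fun a => ?_
          obtain ⟨e1, e2⟩ := hmod i (by omega)
          have h := ihr (i + 1) (by omega) z (Function.update b ⟨i, by omega⟩ a)
          have e4 : nxt hn upd (j * n + i) (z, b) a =
              (z, Function.update b ⟨i, by omega⟩ a) := by
            simp only [nxt, e1, if_neg (show ¬ i + 1 = n by omega)]
          rw [e4]
          exact h
      intro q
      obtain ⟨r, rfl⟩ : ∃ r, n = r + 1 := ⟨n - 1, by omega⟩
      have h := inner r 0 (zero_add _) q.1 q.2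
      simp only [Nat.not_lt_zero, if_false, add_zero] at h
      rw [lose, add_mul, one_mul]
      exact h
  have h := key J 0 (z₀, fun _ => a₀)
  rw [zero_mul] at h
  change 1 ≤ ∫⁻ q, _ ∂Measure.dirac _ + _
  rw [lintegral_dirac]
  exact h

end Vale.Agent.N309X
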