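import Vale.Agent.N309X.Gauss

/-!
# P309: solving a block of equations from quantised rows
-/

namespace Vale.Agent.N309X

open MeasureTheory ProbabilityTheory Set P309
open scoped ENNReal RealInnerProductSpace

variable {n d m : ℕ}

theorem mp_curry : MeasurePreserving (fun (ω : Fin n × Fin d → ℝ) t l => ω (t, l))
    (gp (Fin n × Fin d)) (Measure.pi fun _ : Fin n => gp (Fin d)) := by
  have h := Measure.infinitePi_map_curry (fun (_ : Fin n) (_ : Fin d) => ga)
  simp only [Measure.infinitePi_eq_pi] at h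
  exact ⟨(MeasurableEquiv.curry (Fin n) (Fin d) ℝ).measurable, h⟩

theorem mp_toLp : MeasurePreserving (WithLp.toLp 2 : (Fin d → ℝ) → Vec d) (gp (Fin d))
    (stdGaussian (Vec d)) :=
  ⟨by fun_prop, map_pi_eq_stdGaussian⟩

theorem mp_rows : MeasurePreserving
    (fun (ω : Fin n × Fin d → ℝ) t => (WithLp.toLp 2 fun l => ω (t, l) : Vec d))
    (gp (Fin n × Fin d)) (rows (Vec d) n) :=
  (measurePreserving_pi _ _ fun _ => mp_toLp).comp mp_curry

theorem mp_col (i : Fin d) : MeasurePreserving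
    (fun (p : (Fin n × Fin d → ℝ) × (Fin n → ℝ)) c => if c.2 = i then p.2 c.1 else p.1 c)
    ((gp (Fin n × Fin d)).prod (gp (Fin n))) (gp (Fin n × Fin d)) := by
  have hm : Measurable fun (p : (Fin n × Fin d → ℝ) × (Fin n → ℝ)) (c : Fin n × Fin d) =>
      if c.2 = i then p.2 c.1 else p.1 c := by
    refine measurable_pi_lambda _ fun c => ?_
    split_ifs <;> fun_prop
  refine ⟨hm, (Measure.pi_eq fun s hs => ?_).symm⟩
  rw [Measure.map_apply hm (MeasurableSet.univ_pi hs)]
  have e : (fun (p : (Fin n × Fin d → ℝ) × (Fin n → ℝ)) (c : Fin n × Fin d) =>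
      if c.2 = i then p.2 c.1 else p.1 c) ⁻¹' univ.pi s =
      (univ.pi fun c => if c.2 = i then univ else s c) ×ˢ univ.pi fun t => s (t, i) := by
    ext p
    simp only [mem_preimage, mem_pi, mem_univ, true_implies, mem_prod]
    refine ⟨fun h => ⟨fun c => ?_, fun t => ?_⟩, fun h c => ?_⟩
    · have := h c
      split_ifs at this ⊢
      · trivial
      · exact this
    · simpa using h (t, i)
    · have h1 := h.1 c
      split_ifs at h1 ⊢ with hc
      · obtain ⟨t, l⟩ := c
        subst hc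
        exact h.2 t
      · exact h1
  rw [e, Measure.prod_prod, Measure.pi_pi, Measure.pi_pi, Fintype.prod_prod_type,
    Fintype.prod_prod_type, ← Finset.prod_mul_distrib]
  refine Finset.prod_congr rfl fun t _ => ?_
  rw [← Finset.mul_prod_erase _ _ (Finset.mem_univ i),
    ← Finset.mul_prod_erase _ (fun l => ga (s (t, l))) (Finset.mem_univ i)]
  simp only [if_true, measure_univ, one_mul]
  rw [mul_comm]
  congr 1
  refine Finset.prod_congr rfl fun l hl => ?_
  rw [if_neg (Finset.ne_of_mem_erase hl)]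

/-- a column of the quantised matrix -/
noncomputable def col (m : ℕ) (K : Fin n × Fin d → ℤ) (l : Fin d) : Vec n :=
  WithLp.toLp 2 fun t => cen m (K (t, l))

/-- the span of the other columns -/
noncomputable def oth (m : ℕ) (K : Fin n × Fin d → ℤ) (i : Fin d) : Submodule ℝ (Vec n) :=
  Submodule.span ℝ (range fun l => if l = i then 0 else col m K l)

/-- the dual vector of a column -/
noncomputable def dua (m : ℕ) (K : Fin n × Fin d → ℤ) (i : Fin d) : Vec n :=
  (oth m K i)ᗮ.starProjection (col m K i)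

/-- the estimate -/
noncomputable def est (m : ℕ) (K : Fin n × Fin d → ℤ) (y : Fin n → ℝ) : Vec d :=
  WithLp.toLp 2 fun i => ⟪dua m K i, WithLp.toLp 2 y⟫ / ‖dua m K i‖ ^ 2

theorem dua_ne (K : Fin n × Fin d → ℤ) {i l : Fin d} (h : l ≠ i) :
    ⟪dua m K i, col m K l⟫ = 0 := by
  have h1 : dua m K i ∈ (oth m K i)ᗮ := Submodule.starProjection_apply_mem _ _
  refine Submodule.inner_left_of_mem_orthogonal ?_ h1
  exact Submodule.subset_span ⟨l, if_neg h⟩

theorem dua_self (K : Fin n × Fin d → ℤ) (i : Fin d) :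
    ⟪dua m K i, col m K i⟫ = ‖dua m K i‖ ^ 2 := by
  have h := (oth m K i)ᗮ.starProjection_inner_eq_zero (col m K i) (dua m K i)
    (Submodule.starProjection_apply_mem _ _)
  rw [inner_sub_left, real_inner_comm, sub_eq_zero] at h
  rw [h]
  exact real_inner_self_eq_norm_sq _

theorem rank_oth (K : Fin (2 * d) × Fin d → ℤ) (i : Fin d) :
    d ≤ Module.finrank ℝ (oth m K i)ᗮ := by
  have h1 : Module.finrank ℝ (oth m K i) ≤ d := by
    have := finrank_range_le_card (R := ℝ) fun l => if l = i then 0 else col m K l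
    rw [Fintype.card_fin] at this
    exact this
  have h2 := Submodule.finrank_add_finrank_orthogonal (oth m K i)
  rw [finrank_euclideanSpace_fin] at h2
  omega

theorem meas_cells : Measurable fun (ω : Fin n × Fin d → ℝ) c => cl m (ω c) :=
  measurable_pi_lambda _ fun c => (meas_cl m).comp (measurable_pi_apply c)

theorem nsq (v : Vec n) : ‖v‖ ^ 2 = ∑ i, v i ^ 2 := by
  rw [EuclideanSpace.norm_sq_eq]
  simp

theorem col_bad (hm : 64 ≤ m) (i : Fin d) :
    gp (Fin (2 * d) × Fin d) {ω | ‖dua m (fun c => cl m (ω c)) i‖ ^ 2 < d / 1600} ≤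
      ENNReal.ofReal (Real.exp (-(d : ℝ))) := by
  have hS : MeasurableSet
      {ω : Fin (2 * d) × Fin d → ℝ | ‖dua m (fun c => cl m (ω c)) i‖ ^ 2 < d / 1600} :=
    meas_cells (t := {K | ‖dua m K i‖ ^ 2 < d / 1600}) (Set.to_countable _).measurableSet
  rw [← (mp_col i).measure_preimage hS.nullMeasurableSet,
    Measure.prod_apply ((mp_col i).measurable hS)]
  refine (lintegral_mono (g := fun _ => ENNReal.ofReal (Real.exp (-(d : ℝ)))) fun ω => ?_).trans
    (by simp)
  have h := proj_lo (oth m (fun c => cl m (ω c)) i)ᗮ (rank_oth _ i)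
  rw [← mp_toLp.measure_preimage
    (measurableSet_le (by fun_prop) measurable_const).nullMeasurableSet] at h
  refine le_trans (measure_mono fun g hg => ?_) h
  simp only [mem_preimage, mem_ofPred_eq] at hg ⊢
  have e1 : oth m (fun c => cl m (if c.2 = i then g c.1 else ω c)) i =
      oth m (fun c => cl m (ω c)) i := by
    unfold oth
    congr 2
    funext l
    by_cases hl : l = i
    · simp only [hl, if_true]
    · simp only [hl, if_false, col]
  simp only [dua, e1] at hg
  set H := (oth m (fun c => cl m (ω c)) i)ᗮ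
  set v := col m (fun c : Fin (2 * d) × Fin d => cl m (if c.2 = i then g c.1 else ω c)) i with hv
  have hm0 : 0 < m := by omega
  have hm' : (64 : ℝ) ≤ m := by exact_mod_cast hm
  have h1 : ‖WithLp.toLp 2 g - v‖ ^ 2 ≤ d / 1600 := by
    rw [nsq]
    calc _ ≤ ∑ _t : Fin (2 * d), (1 / 64 : ℝ) ^ 2 := by
          refine Finset.sum_le_sum fun t _ => ?_
          have h2 := abs_sub_cen hm0 (g t)
          have h3 : (1 : ℝ) / m ≤ 1 / 64 := one_div_le_one_div_of_le (by norm_num) hm'
          have h4 : (WithLp.toLp 2 g - v : Vec (2 * d)) t = g t - cen m (cl m (g t)) := by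
            simp [hv, col]
          rw [h4, ← sq_abs]
          gcongr
          exact h2.trans h3
      _ ≤ d / 1600 := by
          simp only [Finset.sum_const, Finset.card_univ, Fintype.card_fin, nsmul_eq_mul]
          push_cast
          have : (0 : ℝ) ≤ d := Nat.cast_nonneg d
          linarith
  have h2 : ‖H.starProjection (WithLp.toLp 2 g - v)‖ ≤ ‖WithLp.toLp 2 g - v‖ :=
    H.norm_starProjection_apply_le _
  have h3 : H.starProjection (WithLp.toLp 2 g) =
      H.starProjection v + H.starProjection (WithLp.toLp 2 g - v) := by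
    rw [← map_add]
    congr 1
    abel
  have h4 := norm_add_le (H.starProjection v) (H.starProjection (WithLp.toLp 2 g - v))
  rw [← h3] at h4
  have h5 := pow_le_pow_left₀ (norm_nonneg _) h2 2
  have h6 := pow_le_pow_left₀ (norm_nonneg _) h4 2
  nlinarith [sq_nonneg (‖H.starProjection v‖ - ‖H.starProjection (WithLp.toLp 2 g - v)‖)]

theorem row_bad (t : Fin n) :
    gp (Fin n × Fin d) {ω | 6 * (d : ℝ) ≤ ∑ l, ω (t, l) ^ 2} ≤
      ENNReal.ofReal (Real.exp (-(d : ℝ))) := by
  have h := tail_up (ι := Fin d)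
  rw [Fintype.card_fin, ← ((measurePreserving_eval (fun _ : Fin n => gp (Fin d)) t).comp
    mp_curry).measure_preimage
    (measurableSet_le measurable_const (by fun_prop)).nullMeasurableSet] at h
  exact h

/-- coefficients of the noise -/
noncomputable def coef (m : ℕ) (e : Vec d) (i : Fin d) (K : Fin n × Fin d → ℤ)
    (c : Fin n × Fin d) : ℝ :=
  if (d : ℝ) / 1600 ≤ ‖dua m K i‖ ^ 2 then dua m K i c.1 * e c.2 / ‖dua m K i‖ ^ 2 else 0

theorem coef_le (hd : 1 ≤ d) (e : Vec d) (i : Fin d) (K : Fin n × Fin d → ℤ) :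
    ∑ c, coef m e i K c ^ 2 ≤ 1600 * ‖e‖ ^ 2 / d := by
  have hd' : (0 : ℝ) < d := by exact_mod_cast hd
  unfold coef
  split_ifs with h
  · have h0 : 0 < ‖dua m K i‖ ^ 2 := lt_of_lt_of_le (by positivity) h
    have h1 : ∑ c : Fin n × Fin d, (dua m K i c.1 * e c.2 / ‖dua m K i‖ ^ 2) ^ 2 =
        ‖dua m K i‖ ^ 2 * ‖e‖ ^ 2 / (‖dua m K i‖ ^ 2) ^ 2 := by
      conv_rhs => rw [nsq e]
      nth_rewrite 2 [nsq (dua m K i)]
      rw [Finset.sum_mul_sum, Fintype.sum_prod_type, Finset.sum_div]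
      refine Finset.sum_congr rfl fun t _ => ?_
      rw [Finset.sum_div]
      refine Finset.sum_congr rfl fun l _ => ?_
      rw [div_pow, mul_pow]
    rw [h1, div_le_div_iff₀ (by positivity) hd']
    have h2 : (d : ℝ) ≤ 1600 * ‖dua m K i‖ ^ 2 := by linarith
    have h3 : 0 ≤ ‖dua m K i‖ ^ 2 * ‖e‖ ^ 2 := by positivity
    nlinarith [mul_le_mul_of_nonneg_left h2 h3]
  · simp only [ne_eq, OfNat.ofNat_ne_zero, not_false_eq_true, zero_pow, Finset.sum_const_zero]
    positivity

theorem est_coord (hd : 1 ≤ d) (e : Vec d) (ω : Fin (2 * d) × Fin d → ℝ)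
    (K : Fin (2 * d) × Fin d → ℤ) (y : Fin (2 * d) → ℝ) {γ : ℝ}
    (hy : ∀ t, |y t - ∑ l, ω (t, l) * e l| ≤ γ) (i : Fin d)
    (h : (d : ℝ) / 1600 ≤ ‖dua m K i‖ ^ 2) :
    (est m K y i - e i) ^ 2 ≤
      2 * (∑ c, coef m e i K c * (ω c - cen m (K c))) ^ 2 + 6400 * γ ^ 2 := by
  have hd' : (0 : ℝ) < d := by exact_mod_cast hd
  set u := dua m K i with hu
  have h0 : 0 < ‖u‖ ^ 2 := lt_of_lt_of_le (by positivity) h
  let η : Vec (2 * d) := WithLp.toLp 2 fun t => y t - ∑ l, ω (t, l) * e l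
  let w : Vec (2 * d) := WithLp.toLp 2 fun t => ∑ l, (ω (t, l) - cen m (K (t, l))) * e l
  have h1 : (WithLp.toLp 2 y : Vec (2 * d)) = ∑ l, e l • col m K l + w + η := by
    ext t
    simp only [η, w, col, WithLp.ofLp_add, Pi.add_apply, WithLp.ofLp_sum, Finset.sum_apply,
      WithLp.ofLp_smul, Pi.smul_apply, smul_eq_mul, sub_mul, Finset.sum_sub_distrib,
      mul_comm (e.ofLp _)]
    ring
  have h2 : ⟪u, ∑ l, e l • col m K l⟫ = e i * ‖u‖ ^ 2 := by
    rw [inner_sum, Finset.sum_eq_single i]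
    · rw [real_inner_smul_right, dua_self]
    · intro l _ hl
      rw [real_inner_smul_right, dua_ne K hl, mul_zero]
    · simp
  have h3 : ⟪u, w⟫ / ‖u‖ ^ 2 = ∑ c, coef m e i K c * (ω c - cen m (K c)) := by
    simp only [coef, ← hu, if_pos h]
    rw [Fintype.sum_prod_type, PiLp.inner_apply, Finset.sum_div]
    refine Finset.sum_congr rfl fun t _ => ?_
    simp only [w, RCLike.inner_apply, conj_trivial, Finset.sum_mul, Finset.sum_div]
    refine Finset.sum_congr rfl fun l _ => ?_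
    ring
  have h4 : est m K y i - e i = ⟪u, w⟫ / ‖u‖ ^ 2 + ⟪u, η⟫ / ‖u‖ ^ 2 := by
    change ⟪u, WithLp.toLp 2 y⟫ / ‖u‖ ^ 2 - e i = _
    rw [h1, inner_add_right, inner_add_right, h2, add_div, add_div,
      mul_div_cancel_right₀ _ h0.ne']
    ring
  have h5 : ‖η‖ ^ 2 ≤ 2 * d * γ ^ 2 := by
    rw [nsq]
    calc _ ≤ ∑ _t : Fin (2 * d), γ ^ 2 := by
          refine Finset.sum_le_sum fun t _ => ?_
          rw [← sq_abs]
          exact pow_le_pow_left₀ (abs_nonneg _) (hy t) 2
      _ = _ := by simp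
  have h6 : (⟪u, η⟫ / ‖u‖ ^ 2) ^ 2 ≤ 3200 * γ ^ 2 := by
    have h7 := pow_le_pow_left₀ (abs_nonneg _) (abs_real_inner_le_norm u η) 2
    rw [sq_abs, mul_pow] at h7
    rw [div_pow, div_le_iff₀ (by positivity)]
    have h8 : ‖η‖ ^ 2 ≤ 3200 * γ ^ 2 * ‖u‖ ^ 2 := by nlinarith [sq_nonneg γ]
    nlinarith [mul_le_mul_of_nonneg_left h8 h0.le]
  rw [h4, h3]
  nlinarith [sq_nonneg ((∑ c, coef m e i K c * (ω c - cen m (K c))) - ⟪u, η⟫ / ‖u‖ ^ 2)]

theorem two_ofReal (x : ℝ) : 2 * ENNReal.ofReal x = ENNReal.ofReal (2 * x) := by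
  rw [ENNReal.ofReal_mul (by norm_num), ENNReal.ofReal_ofNat]

theorem est_bound (hm : 64 ≤ m) (hd : 1 ≤ d) (e : Vec d) :
    ∃ (B : Set (Fin (2 * d) × Fin d → ℝ)) (N : (Fin (2 * d) × Fin d → ℝ) → ℝ≥0∞),
      MeasurableSet B ∧ Measurable N ∧
      gp _ B ≤ ENNReal.ofReal (3 * d * Real.exp (-(d : ℝ))) ∧
      ∫⁻ ω, N ω ∂gp _ ≤ ENNReal.ofReal (3200 * ‖e‖ ^ 2 / m ^ 2) ∧
      ∀ ω ∉ B, (∀ t, ∑ l, ω (t, l) ^ 2 ≤ 6 * d) ∧ ∀ (y : Fin (2 * d) → ℝ) (γ : ℝ),
        (∀ t, |y t - ∑ l, ω (t, l) * e l| ≤ γ) →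
        ENNReal.ofReal (‖est m (fun c => cl m (ω c)) y - e‖ ^ 2) ≤
          N ω + ENNReal.ofReal (6400 * d * γ ^ 2) := by
  have hd' : (0 : ℝ) < d := by exact_mod_cast hd
  have hm0 : 0 < m := by omega
  let X : Fin d → (Fin (2 * d) × Fin d → ℝ) → ℝ := fun i ω =>
    (∑ c, coef m e i (fun c => cl m (ω c)) c * (ω c - cen m (cl m (ω c)))) ^ 2
  have hX : ∀ i, Measurable fun ω => ENNReal.ofReal (X i ω) := fun i => by
    refine Measurable.ennreal_ofReal (Measurable.pow_const (Finset.measurable_sum _ fun c _ => ?_) 2)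
    refine Measurable.mul ((measurable_of_countable fun K => coef m e i K c).comp meas_cells) ?_
    exact (measurable_pi_apply c).sub
      ((measurable_of_countable (cen m)).comp ((meas_cl m).comp (measurable_pi_apply c)))
  refine ⟨(⋃ t, {ω | 6 * (d : ℝ) ≤ ∑ l, ω (t, l) ^ 2}) ∪
    ⋃ i, {ω | ‖dua m (fun c => cl m (ω c)) i‖ ^ 2 < d / 1600},
    fun ω => 2 * ∑ i, ENNReal.ofReal (X i ω), ?_, ?_, ?_, ?_, fun ω hω => ?_⟩
  · refine (MeasurableSet.iUnion fun t => measurableSet_le measurable_const (by fun_prop)).union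
      (MeasurableSet.iUnion fun i => ?_)
    exact meas_cells (t := {K | ‖dua m K i‖ ^ 2 < d / 1600}) (Set.to_countable _).measurableSet
  · exact (Finset.measurable_sum _ fun i _ => hX i).const_mul _
  · refine (measure_union_le _ _).trans ?_
    refine (add_le_add ((measure_iUnion_fintype_le _ _).trans
      (Finset.sum_le_sum fun t _ => row_bad t)) ((measure_iUnion_fintype_le _ _).trans
      (Finset.sum_le_sum fun i _ => col_bad hm i))).trans (le_of_eq ?_)
    simp only [Finset.sum_const, Finset.card_univ, Fintype.card_fin, nsmul_eq_mul]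
    rw [← add_mul, ENNReal.ofReal_mul (by positivity), ← Nat.cast_add,
      ← ENNReal.ofReal_natCast]
    congr 2
    push_cast
    ring
  · rw [lintegral_const_mul _ (Finset.measurable_sum _ fun i _ => hX i),
      lintegral_finsetSum _ fun i _ => hX i]
    calc _ ≤ 2 * ∑ _i : Fin d, ENNReal.ofReal (1600 * ‖e‖ ^ 2 / d / m ^ 2) := by
          gcongr with i
          exact noise hm0 (coef m e i) (coef_le hd e i)
      _ = _ := by
          simp only [Finset.sum_const, Finset.card_univ, Fintype.card_fin, nsmul_eq_mul]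
          rw [← ENNReal.ofReal_natCast, ← ENNReal.ofReal_mul hd'.le, two_ofReal]
          congr 1
          field_simp
          ring
  · simp only [mem_union, mem_iUnion, mem_ofPred_eq, not_or, not_exists, not_le, not_lt] at hω
    refine ⟨fun t => (hω.1 t).le, fun y γ hy => ?_⟩
    have hX0 : ∀ i ∈ Finset.univ, 0 ≤ X i ω := fun i _ => sq_nonneg _
    beta_reduce
    rw [← ENNReal.ofReal_sum_of_nonneg hX0, two_ofReal, ← ENNReal.ofReal_add
        (mul_nonneg (by norm_num) (Finset.sum_nonneg hX0)) (by positivity)]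
    apply ENNReal.ofReal_le_ofReal
    rw [nsq]
    refine (Finset.sum_le_sum fun i _ => est_coord hd e ω _ y hy i (hω.2 i)).trans (le_of_eq ?_)
    simp only [Finset.sum_add_distrib, Finset.sum_const, Finset.card_univ, Fintype.card_fin,
      nsmul_eq_mul, ← Finset.mul_sum, X]
    ring

end Vale.Agent.N309X
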