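import Vale.Agent.N309X.Pot

/-!
# P309: parameters of the block learner; the lower bound with explicit constants
-/

namespace Vale.Agent.N309X

open MeasureTheory ProbabilityTheory Set P309
open scoped ENNReal RealInnerProductSpace

theorem count_le {d B M : ℕ} (hd : 1 ≤ d) (hB : 1 ≤ B) {ε : ℝ} (hε : 0 < ε) (hε1 : ε ≤ 1 / 2)
    (hM : d * Real.logb 2 (1 / ε) + 112 * B * (d : ℝ) ^ 2 ≤ M) :
    (⌈(1 + 6 / (ε / 2 ^ (B + d + 4))) ^ d⌉₊ : ℝ) *
      ((6 * Real.exp 14 * ((320 * 2 ^ B : ℕ) : ℝ)) ^ d *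
        (8 * d * ((2 ^ (B + d + 11) : ℕ) : ℝ) + 1)) ^ (2 * d) ≤ ((2 ^ M : ℕ) : ℝ) := by
  have hx : (d : ℝ) ≤ 2 ^ d := by exact_mod_cast (Nat.lt_two_pow_self (n := d)).le
  have hx1 : (1 : ℝ) ≤ 2 ^ d := one_le_pow₀ (by norm_num)
  have hy : (1 : ℝ) ≤ 2 ^ B := one_le_pow₀ (by norm_num)
  have h1 : 1 + 6 / (ε / 2 ^ (B + d + 4)) ≤ 2 ^ (B + d + 7) * (1 / ε) := by
    have h2 : (1 : ℝ) ≤ 2 ^ (B + d + 4) * (1 / ε) := by
      refine one_le_mul_of_one_le_of_one_le (one_le_pow₀ (by norm_num)) ?_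
      rw [le_div_iff₀ hε]
      linarith
    have h3 : 6 / (ε / 2 ^ (B + d + 4)) = 6 * (2 ^ (B + d + 4) * (1 / ε)) := by field_simp
    have h4 : (2 : ℝ) ^ (B + d + 7) * (1 / ε) = 8 * (2 ^ (B + d + 4) * (1 / ε)) := by ring
    linarith
  have h2 : (⌈(1 + 6 / (ε / 2 ^ (B + d + 4))) ^ d⌉₊ : ℝ) ≤
      2 * (2 ^ (B + d + 7) * (1 / ε)) ^ d := by
    have h3 := Nat.ceil_lt_add_one (a := (1 + 6 / (ε / 2 ^ (B + d + 4))) ^ d) (by positivity)
    have h4 : 1 ≤ (1 + 6 / (ε / 2 ^ (B + d + 4))) ^ d :=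
      one_le_pow₀ (le_add_of_nonneg_right (by positivity))
    have h5 := pow_le_pow_left₀ (by positivity) h1 d
    linarith
  have h3 : 6 * Real.exp 14 * ((320 * 2 ^ B : ℕ) : ℝ) ≤ 2 ^ (B + 32) := by
    have h4 : Real.exp 14 ≤ 2 ^ 21 := by
      have h5 : Real.exp 14 = Real.exp 1 ^ 14 := by rw [← Real.exp_nat_mul]; norm_num
      have := Real.exp_one_lt_d9
      calc Real.exp 14 = Real.exp 1 ^ 14 := h5
        _ ≤ 2.72 ^ 14 := by gcongr; linarith
        _ ≤ 2 ^ 21 := by norm_num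
    push_cast
    rw [pow_add]
    nlinarith
  have h4 : 8 * d * ((2 ^ (B + d + 11) : ℕ) : ℝ) + 1 ≤ 2 ^ (B + 2 * d + 15) := by
    push_cast
    have h5 : (1 : ℝ) ≤ 2 ^ (B + d + 11) := one_le_pow₀ (by norm_num)
    have h6 : (2 : ℝ) ^ (B + 2 * d + 15) = 16 * 2 ^ d * 2 ^ (B + d + 11) := by ring
    rw [h6]
    nlinarith
  have h5 : (1 / ε) ^ d = (2 : ℝ) ^ (d * Real.logb 2 (1 / ε)) := by
    rw [mul_comm, Real.rpow_mul (by norm_num),
      Real.rpow_logb (by norm_num) (by norm_num) (by positivity), Real.rpow_natCast]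
  have h6 : 1 + (B + d + 7) * d + ((B + 32) * d + (B + 2 * d + 15)) * (2 * d) ≤
      112 * B * d ^ 2 := by
    have k1 : d ≤ B * d := Nat.le_mul_of_pos_left _ hB
    have k2 : B ≤ B * d := Nat.le_mul_of_pos_right _ (by omega)
    have k3 : 1 ≤ d := by omega
    have k4 : B + d + 7 ≤ 9 * (B * d) := by omega
    have k5 : (B + 32) * d + (B + 2 * d + 15) ≤ 51 * (B * d) := by
      rw [add_mul]
      omega
    have k6 := Nat.mul_le_mul_right d k4
    have k7 := Nat.mul_le_mul_right (2 * d) k5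
    have k8 : 1 ≤ B * d * d := Nat.one_le_iff_ne_zero.2 (by positivity)
    calc _ ≤ B * d * d + 9 * (B * d) * d + 51 * (B * d) * (2 * d) := by omega
      _ = _ := by ring
  calc _ ≤ 2 * (2 ^ (B + d + 7) * (1 / ε)) ^ d *
        ((2 ^ (B + 32)) ^ d * 2 ^ (B + 2 * d + 15)) ^ (2 * d) := by gcongr
    _ = 2 ^ (1 + (B + d + 7) * d + ((B + 32) * d + (B + 2 * d + 15)) * (2 * d)) *
        (1 / ε) ^ d := by
        rw [mul_pow, ← pow_mul, ← pow_mul, ← pow_add, ← pow_mul, pow_add, pow_add, pow_one]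
        ring
    _ ≤ 2 ^ (112 * B * d ^ 2) * (1 / ε) ^ d := by
        gcongr
        norm_num
    _ ≤ ((2 ^ M : ℕ) : ℝ) := by
        rw [h5, ← Real.rpow_natCast, ← Real.rpow_add (by norm_num)]
        push_cast
        rw [← Real.rpow_natCast 2 M]
        exact Real.rpow_le_rpow_of_exponent_le (by norm_num) (by linarith)

theorem core {d B M : ℕ} (hd : 1000 ≤ d) (hB : 1 ≤ B) {ε : ℝ} (hε : 0 < ε) (hε1 : ε ≤ 1 / 2)
    (hW : 4 * Real.log (1 / ε) ≤ B * 2 ^ d)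
    (hM : d * Real.logb 2 (1 / ε) + 112 * B * (d : ℝ) ^ 2 ≤ M) :
    ∃ T : ℕ, (T : ℝ) ≤ 6 * d * (1 + Real.log (1 / ε) / B) ∧
      ∃ K : Learner (Vec d) (2 ^ M), K.FixedOutput ∧ K.Succeeds T ε := by
  have hd' : (1000 : ℝ) ≤ d := by exact_mod_cast hd
  have hB' : (1 : ℝ) ≤ B := by exact_mod_cast hB
  have hx : (d : ℝ) ≤ 2 ^ d := by exact_mod_cast (Nat.lt_two_pow_self (n := d)).le
  have hy : (1 : ℝ) ≤ 2 ^ B := one_le_pow₀ (by norm_num)
  have hθ : (80 / ((320 * 2 ^ B : ℕ) : ℝ)) = (1 / 2) ^ (B + 2) := by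
    push_cast
    rw [one_div, inv_pow, pow_add]
    field_simp
    norm_num
  obtain ⟨J, hJ1, hJ2⟩ := exists_nat_pow_near_of_lt_one (x := ε / 32) (y := (1 / 2 : ℝ) ^ (B + 2))
    (by positivity) (by linarith) (by positivity) (pow_lt_one₀ (by norm_num) (by norm_num) (by omega))
  obtain ⟨W, hWd⟩ : ∃ W, W = Real.log (1 / ε) := ⟨_, rfl⟩
  have hW0 : 0 ≤ W := by
    rw [hWd]
    apply Real.log_nonneg
    rw [le_div_iff₀ hε]
    linarith
  have hJ3 : (J : ℝ) ≤ 2 + 2 * W / B := by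
    have h1 := Real.log_le_log (by positivity) hJ2
    rw [Real.log_pow, Real.log_pow, Real.log_div hε.ne' (by norm_num), one_div, Real.log_inv,
      show (32 : ℝ) = 2 ^ 5 by norm_num, Real.log_pow] at h1
    have h2 : Real.log ε = -W := by rw [hWd, one_div, Real.log_inv, neg_neg]
    have h3 := Real.log_two_gt_d9
    have hJ0 : (0 : ℝ) ≤ J := Nat.cast_nonneg J
    rw [h2] at h1
    push_cast at h1
    have h4 : ((J : ℝ) * (B + 2) - 5) * Real.log 2 ≤ W := by linarith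
    by_contra h5
    have h6 : 2 * B + 2 * W < J * B := by
      have := mul_lt_mul_of_pos_right (not_le.1 h5) (by linarith : (0 : ℝ) < B)
      rwa [add_mul, div_mul_cancel₀ _ (by linarith : (B : ℝ) ≠ 0)] at this
    have h7 : 2 < (J : ℝ) := lt_of_le_of_lt (le_add_of_nonneg_right (by positivity)) (not_le.1 h5)
    have h8 : 2 * W ≤ (J : ℝ) * (B + 2) - 5 := by nlinarith
    nlinarith
  rw [← hWd] at hW ⊢
  have hJ4 : ((J + 1 : ℕ) : ℝ) ≤ 2 ^ d := by
    have h1 : 2 * W / B ≤ 2 ^ d / 2 := by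
      rw [div_le_iff₀ (by linarith)]
      linarith
    push_cast
    linarith
  refine ⟨(J + 1) * (2 * d), ?_, blk_learner (m := 320 * 2 ^ B) (p := 2 ^ (B + d + 11))
    (δ := ε / 2 ^ (B + d + 4)) (β := 1 / (4 * 2 ^ d)) (Nz := ⌈(1 + 6 / (ε / 2 ^ (B + d + 4))) ^ d⌉₊)
    (Nat.le_mul_of_pos_right _ (by positivity)) (by omega) Nat.one_le_two_pow hε hε1
    (by positivity) ?_ ?_ (Nat.le_ceil _) ?_ ?_ ?_⟩
  · push_cast
    have h1 : 0 ≤ W / B := by positivity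
    have h2 : 2 * W / B = 2 * (W / B) := by ring
    nlinarith
  · rw [div_le_one (by positivity)]
    exact le_trans (by linarith) (one_le_pow₀ (by norm_num))
  · rw [hθ]
    linarith
  · have h1 : 3 * d * Real.exp (-(d : ℝ)) ≤ 1 / (12 * 2 ^ d) := by
      have h2 : (2 : ℝ) ^ d ≤ Real.exp (0.7 * d) := by
        rw [mul_comm, Real.exp_nat_mul]
        gcongr
        have := Real.log_two_lt_d9
        calc (2 : ℝ) = Real.exp (Real.log 2) := (Real.exp_log (by norm_num)).symm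
          _ ≤ _ := Real.exp_le_exp.2 (by linarith)
      have h3 : 36 * (d : ℝ) ≤ Real.exp (0.3 * d) := by
        have := Real.quadratic_le_exp_of_nonneg (x := 0.3 * d) (by positivity)
        nlinarith
      have h4 : Real.exp d = Real.exp (0.3 * d) * Real.exp (0.7 * d) := by
        rw [← Real.exp_add]
        congr 1
        ring
      rw [Real.exp_neg, ← div_eq_mul_inv, div_le_div_iff₀ (Real.exp_pos _) (by positivity), h4]
      have := mul_le_mul h3 h2 (by positivity) (by positivity)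
      linarith
    have h2 : 2 * d * (((320 * 2 ^ B : ℕ) : ℝ) / ((2 ^ (B + d + 11) : ℕ) : ℝ)) ^ 2 ≤
        1 / (12 * 2 ^ d) := by
      have h3 : (((320 * 2 ^ B : ℕ) : ℝ) / ((2 ^ (B + d + 11) : ℕ) : ℝ)) = 5 / (32 * 2 ^ d) := by
        push_cast
        rw [pow_add, pow_add]
        field_simp
        norm_num
      rw [h3, div_pow, ← mul_div_assoc, div_le_div_iff₀ (by positivity) (by positivity)]
      have : (0 : ℝ) < 2 ^ d := by positivity
      nlinarith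
    have h3 : 2 * (ε / 2 ^ (B + d + 4) / (8 * (80 / ((320 * 2 ^ B : ℕ) : ℝ)) ^ (J + 1))) ^ 2 ≤
        1 / (12 * 2 ^ d) := by
      have h4 : ε / 2 ^ (B + d + 4) / (8 * (80 / ((320 * 2 ^ B : ℕ) : ℝ)) ^ (J + 1)) ≤
          1 / 2 ^ d := by
        rw [hθ, div_le_iff₀ (by positivity), pow_succ _ J]
        calc ε / 2 ^ (B + d + 4) = 1 / 2 ^ d * (8 * (ε / 32 * (1 / 2) ^ (B + 2))) := by
              rw [one_div 2, inv_pow, pow_add, pow_add, pow_add]
              field_simp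
              norm_num
          _ ≤ _ := by gcongr
      have h5 := pow_le_pow_left₀ (by positivity) h4 2
      refine le_trans (mul_le_mul_of_nonneg_left h5 (by norm_num)) ?_
      rw [div_pow, ← mul_div_assoc, div_le_div_iff₀ (by positivity) (by positivity)]
      have : (0 : ℝ) < 2 ^ d := by positivity
      nlinarith
    have h4 : (1 : ℝ) / (4 * 2 ^ d) = 3 * (1 / (12 * 2 ^ d)) := by
      field_simp
      norm_num
    linarith
  · rw [mul_one_div, div_le_iff₀ (by positivity)]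
    linarith
  · exact count_le (by omega) hB hε hε1 hM

theorem numeric' {C : ℝ} (hC : 0 < C) {d : ℕ} (hd : 16384 ≤ d) {ε : ℝ} (hε : 0 < ε)
    (hΛ : 4 * ((50 + 23 * C) + 4) ≤ Real.log (1 / ε)) {N : ℕ} (hN : 1 ≤ N)
    (hNC : (N : ℝ) ≤ (2 : ℝ) ^ (C * (d : ℝ) ^ 2)) (T : ℕ)
    (hvol : (2 / 3 : ℝ) ≤ N * (T + 1) * (6 ^ d * ε ^ (d - 1)))
    (hblock : ∀ (J m : ℕ) (η : ℝ), T ≤ J * (d / 8) → 0 < η → η ≤ 1 →
      ((N * (d / 8 + 1) : ℕ) : ℝ) ≤ 2 ^ (m * (d / 8)) →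
      (2 / 3 : ℝ) ≤ J * (8 * η + Real.exp (-((d / 8 : ℕ) : ℝ))) +
        (4 * 10 ^ (10 * d + 17 * (d / 8)) * (1 / η) ^ 11 * 4 ^ m) ^ J *
          (6 ^ d * ε ^ (d - 1 - (3 * (d / 8) + 3)))) :
    d * Real.log (1 / ε) / (64 * (50 + 23 * C)) ≤ T := by
  have hC₂pos : (0 : ℝ) < 50 + 23 * C := by positivity
  by_contra hT
  push Not at hT
  obtain ⟨Λ, hΛdef⟩ : ∃ Λ : ℝ, Λ = Real.log (1 / ε) := ⟨_, rfl⟩
  rw [← hΛdef] at hT hΛ
  have hlogε : Real.log ε = -Λ := by rw [hΛdef, one_div, Real.log_inv]; ring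
  have hΛpos : 0 < Λ := by linarith only [hC, hΛ]
  have hd' : (16384 : ℝ) ≤ d := by exact_mod_cast hd
  obtain ⟨n, hn⟩ : ∃ n : ℕ, n = d / 8 := ⟨_, rfl⟩
  rw [← hn] at hblock
  have hn8 : 8 * n ≤ d := by omega
  have hn8' : d < 8 * n + 8 := by omega
  have hn1 : 1 ≤ n := by omega
  have hnr : (8 : ℝ) * n ≤ d := by exact_mod_cast hn8
  have hnr' : (d : ℝ) < 8 * n + 8 := by exact_mod_cast hn8'
  have hn16 : (d : ℝ) / 16 ≤ n := by linarith only [hd', hnr']
  have hΛd : Λ ≤ (2 * C + 6) * d :=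
    numeric_vol C hC d hd' ε Λ hε hlogε hΛpos N hN hNC T hT hvol
  obtain ⟨hTJ, hJr⟩ := numeric_blocks (50 + 23 * C) hC₂pos d n T Λ hd' hn1 hn16 hΛpos hT
  obtain ⟨J, hJ⟩ : ∃ J : ℕ, J = T / n + 1 := ⟨_, rfl⟩
  rw [← hJ] at hTJ hJr
  have hJ1 : (1 : ℝ) ≤ J := by
    have : 1 ≤ J := by rw [hJ]; exact Nat.le_add_left _ _
    exact_mod_cast this
  have hJ2d : (J : ℝ) ≤ 2 * d := by
    have h1 : Λ / (4 * (50 + 23 * C)) ≤ d := by
      rw [div_le_iff₀ (by positivity)]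
      calc Λ ≤ (2 * C + 6) * d := hΛd
        _ ≤ d * (4 * (50 + 23 * C)) := by nlinarith only [hC]
    linarith only [hd', hJr, h1]
  have hmr : ((⌈16 * C * d⌉₊ + 1 : ℕ) : ℝ) ≤ 16 * C * d + 2 := by
    push_cast
    have := Nat.ceil_lt_add_one (by positivity : (0 : ℝ) ≤ 16 * C * d)
    linarith only [this]
  have hη : (0 : ℝ) < 1 / (100 * J) := by positivity
  have hη1 : (1 : ℝ) / (100 * J) ≤ 1 := by
    rw [div_le_one (by positivity)]; linarith only [hJ1]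
  have hfin := hblock J (⌈16 * C * d⌉₊ + 1) (1 / (100 * J)) hTJ hη hη1
    (numeric_mem C d n hn16 N hNC)
  have herr := numeric_err d n J hd' hn16 hJ1 hJ2d
  have her : (d : ℝ) / 2 ≤ (d - 1 - (3 * n + 3) : ℕ) := by
    rw [Nat.cast_sub (by omega), Nat.cast_sub (by omega)]
    push_cast
    linarith only [hd', hnr]
  exact numeric_final (50 + 23 * C) hC₂pos d _ J hd' ε Λ _ hε hlogε hΛ (by positivity)
    (numeric_logA C hC d n J (⌈16 * C * d⌉₊ + 1) hd' hnr hJ1 hJ2d hmr) hJr her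
    (by linarith only [hfin, herr])

theorem lower' {C : ℝ} (hC : 0 < C) {d : ℕ} (hd : 16384 ≤ d) {ε : ℝ} (hε : 0 < ε)
    (hΛ : 4 * ((50 + 23 * C) + 4) ≤ Real.log (1 / ε)) {N : ℕ}
    (hN : (N : ℝ) ≤ (2 : ℝ) ^ (C * (d : ℝ) ^ 2)) (L : Learner (Vec d) N) (T : ℕ)
    (hL : L.Succeeds T ε) : d * Real.log (1 / ε) / (64 * (50 + 23 * C)) ≤ T := by
  have hN1 : 1 ≤ N := by
    have := L.init_prob
    obtain ⟨q⟩ : Nonempty (Fin N) := nonempty_of_isProbabilityMeasure L.init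
    have := q.2
    omega
  have h23 : ENNReal.ofReal (2 / 3) = 2 / 3 := by
    rw [ENNReal.ofReal_div_of_pos (by norm_num)]
    simp
  unfold Learner.Succeeds at hL
  rw [← h23] at hL
  refine numeric' hC hd hε hΛ hN1 hN T ?_ ?_
  · have h1 := hL.trans (L.success_le_vol (by omega) ε hε T)
    have h2 : ((T : ℝ≥0∞) + 1) * (N * ENNReal.ofReal (6 ^ d * ε ^ (d - 1))) =
        ENNReal.ofReal (N * (T + 1) * (6 ^ d * ε ^ (d - 1))) := by
      have hx : (0 : ℝ) ≤ 6 ^ d * ε ^ (d - 1) := by positivity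
      generalize (6 : ℝ) ^ d * ε ^ (d - 1) = x at hx ⊢
      rw [ENNReal.ofReal_mul (by positivity), ENNReal.ofReal_mul (by positivity),
        ENNReal.ofReal_natCast, ENNReal.ofReal_add (by positivity) (by norm_num),
        ENNReal.ofReal_natCast, ENNReal.ofReal_one]
      ring
    rw [h2] at h1
    exact (ENNReal.ofReal_le_ofReal_iff (by positivity)).mp h1
  · intro J m η hT hη hη1 hm
    have hm' : N * (d / 8 + 1) ≤ 2 ^ (m * (d / 8)) := by exact_mod_cast hm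
    have h1 := hL.trans (L.success_le_block (by omega) ε hε hN1 T J m hT
      (ENNReal.ofReal η) (by simpa using hη) (by simpa using hη1) hm')
    have h2 : (J : ℝ≥0∞) * (8 * ENNReal.ofReal η +
        ENNReal.ofReal (Real.exp (-((d / 8 : ℕ) : ℝ)))) +
        gam d (d / 8) m (ENNReal.ofReal η) ^ J *
          ENNReal.ofReal (6 ^ d * ε ^ (d - 1 - (3 * (d / 8) + 3))) =
        ENNReal.ofReal (J * (8 * η + Real.exp (-((d / 8 : ℕ) : ℝ))) +
       (4 * 10 ^ (10 * d + 17 * (d / 8)) * (1 / η) ^ 11 * 4 ^ m) ^ J *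
        (6 ^ d * ε ^ (d - 1 - (3 * (d / 8) + 3)))) := by
      unfold gam
      have hx : (0 : ℝ) ≤ 6 ^ d * ε ^ (d - 1 - (3 * (d / 8) + 3)) := by positivity
      generalize (6 : ℝ) ^ d * ε ^ (d - 1 - (3 * (d / 8) + 3)) = x at hx ⊢
      have hy : (0 : ℝ) ≤ Real.exp (-((d / 8 : ℕ) : ℝ)) := by positivity
      generalize Real.exp (-((d / 8 : ℕ) : ℝ)) = y at hy ⊢
      rw [ENNReal.ofReal_add (by positivity) (by positivity), ENNReal.ofReal_mul (by positivity),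
        ENNReal.ofReal_natCast, ENNReal.ofReal_add (by positivity) (by positivity),
        ENNReal.ofReal_mul (by norm_num), ENNReal.ofReal_mul (by positivity),
        ENNReal.ofReal_pow (by positivity),
        ENNReal.ofReal_mul (by positivity), ENNReal.ofReal_mul (by positivity),
        ENNReal.ofReal_mul (by positivity), ENNReal.ofReal_pow (by positivity),
        ENNReal.ofReal_pow (by positivity), ENNReal.ofReal_pow (by positivity),
        one_div, ENNReal.ofReal_inv_of_pos hη]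
      simp only [ENNReal.ofReal_ofNat]
    rw [h2] at h1
    exact (ENNReal.ofReal_le_ofReal_iff (by positivity)).mp h1

end Vale.Agent.N309X
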