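import Mathlib

/-! # P309: one pass learners with finitely many states -/

namespace Vale.Agent.N309X

open MeasureTheory ProbabilityTheory

/-- Euclidean space. -/
abbrev V (d : ℕ) : Type := EuclideanSpace ℝ (Fin d)

/-- The scalar product. -/
def dot {d : ℕ} (x y : V d) : ℝ := ∑ i, x i * y i

/-- The uniform law on the unit sphere: the normalised surface measure. -/
noncomputable def unif (E : Type) [NormedAddCommGroup E] [InnerProductSpace ℝ E]
    [FiniteDimensional ℝ E] [MeasurableSpace E] [BorelSpace E] : Measure E :=
  (ProbabilityTheory.cond (volume : Measure E).toSphere Set.univ).map Subtype.val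

/-- The joint law of the signal and the rows: independent, uniform and standard Gaussian. -/
noncomputable def data (d : ℕ) : Measure (V d × (ℕ → V d)) :=
  (unif (V d)).prod (Measure.infinitePi fun _ => stdGaussian (V d))

/-- A learner with `N` states and coins `ω : Ω` (every rule may look at all coins). At index `t` the
coins, the state, the row and the label give the new state `next t` and the decision `stop t`;
`out t` is the output rule after `t` pairs. -/
structure Alg (d N : ℕ) (Ω : Type) [MeasurableSpace Ω] where
  init : Ω → Fin N
  next : ℕ → Ω × Fin N × V d × ℝ → Fin N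
  stop : ℕ → Ω × Fin N × V d × ℝ → Bool
  out : ℕ → Ω × Fin N → V d
  unit : ∀ t p, dot (out t p) (out t p) = 1
  meas : Measurable init ∧ ∀ t, Measurable (next t) ∧ Measurable (stop t) ∧ Measurable (out t)

variable {d N : ℕ} {Ω : Type} [MeasurableSpace Ω]

/-- The final output for the coins `ω`, the signal `s` and the rows `x`, if at most `k` more pairs
may be read, `t` pairs have been read and the state is `q`. -/
def Alg.answer (L : Alg d N Ω) (ω : Ω) (s : V d) (x : ℕ → V d) : ℕ → ℕ → Fin N → V d
  | 0, t, q => L.out t (ω, q)
  | k + 1, t, q =>
    if L.stop t (ω, q, x t, dot (x t) s) = true then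
      L.out (t + 1) (ω, L.next t (ω, q, x t, dot (x t) s))
    else L.answer ω s x k (t + 1) (L.next t (ω, q, x t, dot (x t) s))

/-- The probability that the output with horizon `T` is within angle `ε` of the signal; the coins
have the law `ρ` and are independent of the data. -/
noncomputable def Alg.success (L : Alg d N Ω) (ρ : Measure Ω) (T : ℕ) (ε : ℝ) : ℝ :=
  (ρ.prod (data d)).real
    {p | Real.arccos (dot (L.answer p.1 p.2.1 p.2.2 T 0 (L.init p.1)) p.2.1) ≤ ε}

end Vale.Agent.N309X
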