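import Vale.Agent.P309C9.Main

/-!
# P309: Gaussian tails, centroid quantisation
-/

namespace Vale.Agent.N309X

open MeasureTheory ProbabilityTheory Set
open scoped ENNReal RealInnerProductSpace

/-- the standard Gaussian law on the line -/
noncomputable abbrev ga : Measure ℝ := gaussianReal 0 1

/-- independent standard Gaussian entries -/
noncomputable abbrev gp (ι : Type) [Fintype ι] : Measure (ι → ℝ) := Measure.pi fun _ : ι => ga

variable {ι : Type} [Fintype ι]

theorem prod_pi (φ : ℝ → ℝ≥0∞) (hφ : Measurable φ) :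
    ∫⁻ x, ∏ a, φ (x a) ∂gp ι = (∫⁻ y, φ y ∂ga) ^ Fintype.card ι := by
  rw [lintegral_prod_eq_prod_lintegral_of_indepFun Finset.univ
    (fun (a : ι) (x : ι → ℝ) => φ (x a))]
  · have : ∀ a : ι, ∫⁻ x, φ (x a) ∂gp ι = ∫⁻ y, φ y ∂ga := fun a =>
      (measurePreserving_eval (fun _ : ι => ga) a).lintegral_comp hφ
    simp only [this, Finset.prod_const, Finset.card_univ]
  · exact iIndepFun_pi (X := fun _ => φ) (fun _ => hφ.aemeasurable)
  · intro a
    exact hφ.comp (measurable_pi_apply a)

theorem chernoff (l c p : ℝ) (hp : 0 ≤ p)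
    (h : ∫⁻ y, ENNReal.ofReal (Real.exp (l * y ^ 2)) ∂ga ≤ ENNReal.ofReal p)
    (h2 : p ≤ Real.exp (c - 1)) :
    gp ι {x | c * Fintype.card ι ≤ l * ∑ a, x a ^ 2} ≤
      ENNReal.ofReal (Real.exp (-(Fintype.card ι : ℝ))) := by
  let φ : ℝ → ℝ≥0∞ := fun y => ENNReal.ofReal (Real.exp (l * y ^ 2))
  have hφ : Measurable φ := by fun_prop
  have hsub : {x : ι → ℝ | c * Fintype.card ι ≤ l * ∑ a, x a ^ 2} ⊆
      {x | ENNReal.ofReal (Real.exp (c * Fintype.card ι)) ≤ ∏ a, φ (x a)} := by
    intro x hx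
    simp only [mem_ofPred_eq] at hx ⊢
    rw [← ENNReal.ofReal_prod_of_nonneg (fun _ _ => (Real.exp_pos _).le), ← Real.exp_sum,
      ← Finset.mul_sum]
    exact ENNReal.ofReal_le_ofReal (Real.exp_le_exp.2 hx)
  refine (measure_mono hsub).trans ?_
  have hmark := meas_ge_le_lintegral_div (μ := gp ι) (f := fun x => ∏ a, φ (x a))
    (Finset.measurable_prod _ fun a _ => hφ.comp (measurable_pi_apply a)).aemeasurable
    (ε := ENNReal.ofReal (Real.exp (c * Fintype.card ι)))
    (by simpa only [ne_eq, ENNReal.ofReal_eq_zero, not_le] using Real.exp_pos _)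
    ENNReal.ofReal_ne_top
  refine hmark.trans ?_
  rw [prod_pi φ hφ]
  refine (ENNReal.div_le_div_right (pow_le_pow_left' h _) _).trans ?_
  rw [← ENNReal.ofReal_pow hp, ← ENNReal.ofReal_div_of_pos (Real.exp_pos _)]
  apply ENNReal.ofReal_le_ofReal
  rw [div_le_iff₀ (Real.exp_pos _), ← Real.exp_add]
  calc p ^ Fintype.card ι ≤ Real.exp (c - 1) ^ Fintype.card ι := by gcongr
    _ = _ := by
      rw [← Real.exp_nat_mul]
      congr 1
      ring

theorem tail_up : gp ι {x | 6 * Fintype.card ι ≤ ∑ a, x a ^ 2} ≤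
    ENNReal.ofReal (Real.exp (-(Fintype.card ι : ℝ))) := by
  have h := chernoff (ι := ι) (1 / 4) (3 / 2) (√2) (by positivity) (by
    have h := P309.lintegral_exp_sq_gaussianReal 1 one_ne_zero
    refine le_of_eq (Eq.trans ?_ h)
    refine lintegral_congr fun y => ?_
    congr 2
    simp only [NNReal.coe_one]
    ring) (by
    have h2 : (2 : ℝ) ≤ Real.exp 1 := by
      have := Real.add_one_le_exp (1 : ℝ)
      linarith
    calc √2 ≤ √(Real.exp 1) := Real.sqrt_le_sqrt h2
      _ = Real.exp (3 / 2 - 1) := by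
          rw [Real.sqrt_eq_rpow, ← Real.exp_mul]
          norm_num)
  refine le_trans (measure_mono fun x hx => ?_) h
  simp only [mem_ofPred_eq] at hx ⊢
  linarith

theorem tail_lo : gp ι {x | ∑ a, x a ^ 2 ≤ Fintype.card ι / 400} ≤
    ENNReal.ofReal (Real.exp (-(Fintype.card ι : ℝ))) := by
  have e3 : (20 : ℝ) ≤ Real.exp 3 ∧ Real.exp 3 ≤ 25 := by
    have h1 : Real.exp 3 = Real.exp 1 ^ 3 := by rw [← Real.exp_nat_mul]; norm_num
    have h2 := Real.exp_one_gt_d9
    have h3 := Real.exp_one_lt_d9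
    rw [h1]
    constructor
    · calc (20 : ℝ) ≤ 2.718 ^ 3 := by norm_num
        _ ≤ Real.exp 1 ^ 3 := by gcongr; linarith
    · calc Real.exp 1 ^ 3 ≤ 2.72 ^ 3 := by gcongr; linarith
        _ ≤ 25 := by norm_num
  have h := chernoff (ι := ι) (-192) (-(1 / 2)) (1 / 8 + 1 / 20) (by positivity) (by
    have hS : MeasurableSet {y : ℝ | |y + 0| ≤ 1 / 8} :=
      measurableSet_le (by fun_prop) measurable_const
    calc ∫⁻ y, ENNReal.ofReal (Real.exp (-192 * y ^ 2)) ∂ga
        ≤ ∫⁻ y, ({y : ℝ | |y + 0| ≤ 1 / 8}.indicator 1 y + ENNReal.ofReal (1 / 20)) ∂ga := by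
          refine lintegral_mono fun y => ?_
          by_cases hy : y ∈ {y : ℝ | |y + 0| ≤ 1 / 8}
          · rw [indicator_of_mem hy]
            refine le_trans ?_ le_self_add
            rw [Pi.one_apply, ENNReal.ofReal_le_one, Real.exp_le_one_iff]
            nlinarith [sq_nonneg y]
          · rw [indicator_of_notMem hy, zero_add]
            apply ENNReal.ofReal_le_ofReal
            simp only [mem_ofPred_eq, add_zero, not_le] at hy
            have h1 : (1 / 8 : ℝ) ^ 2 ≤ y ^ 2 := by
              rw [← sq_abs y]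
              gcongr
            calc Real.exp (-192 * y ^ 2) ≤ Real.exp (-3) := by
                  apply Real.exp_le_exp.2
                  linarith
              _ ≤ 1 / 20 := by
                  rw [Real.exp_neg, ← one_div]
                  exact one_div_le_one_div_of_le (by norm_num) e3.1
      _ = ga {y : ℝ | |y + 0| ≤ 1 / 8} + ENNReal.ofReal (1 / 20) := by
          rw [lintegral_add_right _ measurable_const, lintegral_indicator_one hS]
          simp
      _ ≤ ENNReal.ofReal (1 / 8 + 1 / 20) := by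
          rw [ENNReal.ofReal_add (by norm_num) (by norm_num)]
          gcongr
          have := P309.gaussianReal_interval_le 1 one_pos (1 / 8) 0 1 (by simp)
          simpa using this) (by
    have h1 : Real.exp (3 / 2) ≤ 5 := by
      have h2 : Real.exp (3 / 2) ^ 2 = Real.exp 3 := by rw [← Real.exp_nat_mul]; norm_num
      nlinarith [Real.exp_pos (3 / 2 : ℝ), e3.2]
    have h2 : Real.exp (-(1 / 2) - 1) = (Real.exp (3 / 2))⁻¹ := by
      rw [← Real.exp_neg]; norm_num
    rw [h2]
    calc (1 / 8 + 1 / 20 : ℝ) ≤ 5⁻¹ := by norm_num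
      _ ≤ _ := inv_anti₀ (Real.exp_pos _) h1)
  refine le_trans (measure_mono fun x hx => ?_) h
  simp only [mem_ofPred_eq] at hx ⊢
  have : (0 : ℝ) ≤ Fintype.card ι := Nat.cast_nonneg _
  linarith

section Proj

variable {F : Type*} [NormedAddCommGroup F] [InnerProductSpace ℝ F] [FiniteDimensional ℝ F]
  [MeasurableSpace F] [BorelSpace F]

theorem std_lo : stdGaussian F {y | ‖y‖ ^ 2 ≤ (Module.finrank ℝ F : ℝ) / 400} ≤
    ENNReal.ofReal (Real.exp (-(Module.finrank ℝ F : ℝ))) := by
  let b := stdOrthonormalBasis ℝ F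
  rw [stdGaussian_eq_map_pi_orthonormalBasis b, Measure.map_apply (by fun_prop)
    (measurableSet_le (by fun_prop) measurable_const)]
  have h := tail_lo (ι := Fin (Module.finrank ℝ F))
  rw [Fintype.card_fin] at h
  refine le_trans (measure_mono fun x hx => ?_) h
  simp only [mem_preimage, mem_ofPred_eq] at hx ⊢
  have h1 : ∑ i, x i • b i = b.repr.symm (WithLp.toLp 2 x) := (b.sum_repr_symm _)
  rw [h1, b.repr.symm.norm_map, EuclideanSpace.norm_sq_eq] at hx
  simpa using hx

theorem map_proj (K : Submodule ℝ F) :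
    (stdGaussian F).map K.orthogonalProjectionOnto = stdGaussian K := by
  have hm : Measurable (K.orthogonalProjectionOnto : F → K) :=
    K.orthogonalProjectionOnto.continuous.measurable
  have : IsProbabilityMeasure ((stdGaussian F).map K.orthogonalProjectionOnto) :=
    Measure.isProbabilityMeasure_map hm.aemeasurable
  refine Measure.ext_of_charFun (funext fun t => ?_)
  rw [charFun_stdGaussian, charFun_apply, integral_map hm.aemeasurable (by fun_prop)]
  have h := charFun_stdGaussian (E := F) (t : F)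
  rw [charFun_apply] at h
  simp only [Submodule.inner_orthogonalProjectionOnto_eq_of_mem_right]
  rw [h]
  rfl

theorem proj_lo (K : Submodule ℝ F) {k : ℕ} (hk : k ≤ Module.finrank ℝ K) :
    stdGaussian F {y | ‖K.starProjection y‖ ^ 2 ≤ (k : ℝ) / 400} ≤
      ENNReal.ofReal (Real.exp (-(k : ℝ))) := by
  have hm : Measurable (K.orthogonalProjectionOnto : F → K) :=
    K.orthogonalProjectionOnto.continuous.measurable
  have hk' : (k : ℝ) ≤ Module.finrank ℝ K := by exact_mod_cast hk
  have h := std_lo (F := K)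
  rw [← map_proj K, Measure.map_apply hm (measurableSet_le (by fun_prop) measurable_const)] at h
  refine le_trans (measure_mono fun y hy => ?_) (h.trans ?_)
  · simp only [mem_preimage, mem_ofPred_eq] at hy ⊢
    have : ‖K.orthogonalProjectionOnto y‖ = ‖K.starProjection y‖ := rfl
    rw [this]
    linarith
  · exact ENNReal.ofReal_le_ofReal (Real.exp_le_exp.2 (by linarith))

end Proj

theorem cond_pi (I : ι → Set ℝ) (hI : ∀ c, MeasurableSet (I c)) (h0 : ∀ c, ga (I c) ≠ 0) :
    (gp ι).restrict (univ.pi I) = gp ι (univ.pi I) • Measure.pi fun c => cond ga (I c) := by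
  have : ∀ c, IsProbabilityMeasure (cond ga (I c)) := fun c => cond_isProbabilityMeasure (h0 c)
  have hB : gp ι (univ.pi I) ≠ 0 := by
    rw [Measure.pi_pi]
    exact Finset.prod_ne_zero_iff.2 fun c _ => h0 c
  have key : (Measure.pi fun c => cond ga (I c)) = cond (gp ι) (univ.pi I) := by
    refine Measure.pi_eq fun s hs => ?_
    rw [cond_apply (MeasurableSet.univ_pi hI), ← pi_inter_distrib, Measure.pi_pi, Measure.pi_pi,
      ENNReal.prod_inv_distrib, ← Finset.prod_mul_distrib]
    · exact Finset.prod_congr rfl fun c _ => (cond_apply (hI c) ga (s c)).symm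
    · intro i _ j _ _
      exact Or.inl (h0 i)
  rw [key, ProbabilityTheory.cond, smul_smul, ENNReal.mul_inv_cancel hB (measure_ne_top _ _), one_smul]

/-- the cell of a number -/
noncomputable def cl (m : ℕ) (y : ℝ) : ℤ := ⌊m * y⌋

/-- the centroid of a cell -/
noncomputable def cen (m : ℕ) (k : ℤ) : ℝ := ∫ y, y ∂cond ga (cl m ⁻¹' {k})

theorem meas_cl (m : ℕ) : Measurable (cl m) := by
  unfold cl
  fun_prop

variable {m : ℕ}

theorem cell_eq (hm : 0 < m) (k : ℤ) : cl m ⁻¹' {k} = Ico ((k : ℝ) / m) ((k + 1) / m) := by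
  have hm' : (0 : ℝ) < m := by exact_mod_cast hm
  ext y
  simp only [mem_preimage, cl, mem_singleton_iff, Int.floor_eq_iff, mem_Ico, div_le_iff₀ hm',
    lt_div_iff₀ hm', mul_comm y]

theorem cell_pos (hm : 0 < m) (k : ℤ) : ga (cl m ⁻¹' {k}) ≠ 0 := by
  have hm' : (0 : ℝ) < m := by exact_mod_cast hm
  intro h
  have h1 := gaussianReal_absolutelyContinuous' 0 (v := 1) one_ne_zero h
  rw [cell_eq hm, Real.volume_Ico, ENNReal.ofReal_eq_zero] at h1
  have : (k : ℝ) / m < (k + 1) / m := by gcongr; linarith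
  linarith

theorem cell_ae (hm : 0 < m) (k : ℤ) :
    ∀ᵐ y ∂cond ga (cl m ⁻¹' {k}), y ∈ Icc ((k : ℝ) / m) ((k + 1) / m) := by
  have h := ae_cond_mem (μ := ga) (meas_cl m (measurableSet_singleton k))
  filter_upwards [h] with y hy
  rw [cell_eq hm] at hy
  exact Ico_subset_Icc_self hy

theorem cen_mem (hm : 0 < m) (k : ℤ) : cen m k ∈ Icc ((k : ℝ) / m) ((k + 1) / m) := by
  have : IsProbabilityMeasure (cond ga (cl m ⁻¹' {k})) := cond_isProbabilityMeasure (cell_pos hm k)
  have hi : Integrable (fun y : ℝ => y) (cond ga (cl m ⁻¹' {k})) :=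
    (memLp_of_bounded (cell_ae hm k) measurable_id.aestronglyMeasurable 1).integrable le_rfl
  constructor
  · have := integral_mono_ae (integrable_const ((k : ℝ) / m)) hi
      ((cell_ae hm k).mono fun y hy => hy.1)
    simpa [cen] using this
  · have := integral_mono_ae hi (integrable_const (((k : ℝ) + 1) / m))
      ((cell_ae hm k).mono fun y hy => hy.2)
    simpa [cen] using this

theorem abs_sub_cen (hm : 0 < m) (y : ℝ) : |y - cen m (cl m y)| ≤ 1 / m := by
  have h1 := cen_mem hm (cl m y)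
  have h2 : y ∈ cl m ⁻¹' {cl m y} := rfl
  rw [cell_eq hm] at h2
  have h3 : ((cl m y : ℝ) + 1) / m = cl m y / m + 1 / m := by ring
  rw [abs_le]
  constructor <;> linarith [h1.1, h1.2, h2.1, h2.2]

theorem noise_box (hm : 0 < m) (K : ι → ℤ) (a : ι → ℝ) :
    ∫⁻ ω, ENNReal.ofReal ((∑ c, a c * (ω c - cen m (K c))) ^ 2)
      ∂(Measure.pi fun c => cond ga (cl m ⁻¹' {K c})) ≤
      ENNReal.ofReal ((∑ c, a c ^ 2) / m ^ 2) := by
  have hm' : (0 : ℝ) < m := by exact_mod_cast hm
  have : ∀ c, IsProbabilityMeasure (cond ga (cl m ⁻¹' {K c})) := fun c =>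
    cond_isProbabilityMeasure (cell_pos hm _)
  have h1 : ∀ c, MemLp (fun y : ℝ => y) 2 (cond ga (cl m ⁻¹' {K c})) := fun c =>
    memLp_of_bounded (cell_ae hm _) measurable_id.aestronglyMeasurable 2
  have h2 : ∀ c, MemLp (fun y : ℝ => a c * (y - cen m (K c))) 2 (cond ga (cl m ⁻¹' {K c})) :=
    fun c => ((h1 c).sub (memLp_const _)).const_mul _
  have h3 : ∀ c, MemLp (fun ω : ι → ℝ => a c * (ω c - cen m (K c))) 2
      (Measure.pi fun c => cond ga (cl m ⁻¹' {K c})) := fun c =>
    (h2 c).comp_measurePreserving (measurePreserving_eval _ c)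
  have h4 : MemLp (fun ω : ι → ℝ => ∑ c, a c * (ω c - cen m (K c))) 2
      (Measure.pi fun c => cond ga (cl m ⁻¹' {K c})) := memLp_finsetSum _ fun c _ => h3 c
  have h5 : ∫ ω, ∑ c, a c * (ω c - cen m (K c))
      ∂(Measure.pi fun c => cond ga (cl m ⁻¹' {K c})) = 0 := by
    rw [integral_finsetSum _ fun c _ => (h3 c).integrable one_le_two]
    refine Finset.sum_eq_zero fun c _ => ?_
    have := integral_comp_eval (μ := fun c => cond ga (cl m ⁻¹' {K c})) (i := c)
      (f := fun y : ℝ => a c * (y - cen m (K c))) (h2 c).1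
    rw [this, integral_const_mul, integral_sub ((h1 c).integrable one_le_two) (integrable_const _)]
    simp [cen]
  rw [← ofReal_integral_eq_lintegral_ofReal h4.integrable_sq
    (Filter.Eventually.of_forall fun _ => sq_nonneg _),
    ← variance_of_integral_eq_zero h4.1.aemeasurable h5]
  apply ENNReal.ofReal_le_ofReal
  have h6 := variance_sum_pi h2
  have h7 : (∑ c, fun ω : ι → ℝ => a c * (ω c - cen m (K c))) =
      fun ω => ∑ c, a c * (ω c - cen m (K c)) := by
    funext ω
    simp only [Finset.sum_apply]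
  rw [h7] at h6
  rw [h6, Finset.sum_div]
  refine Finset.sum_le_sum fun c _ => ?_
  rw [variance_const_mul, variance_sub_const (h1 c).1]
  have h8 := variance_le_sq_of_bounded (cell_ae hm (K c)) measurable_id.aemeasurable
  have h9 : ((((K c : ℝ) + 1) / m - K c / m) / 2) ^ 2 ≤ 1 / m ^ 2 := by
    have : (((K c : ℝ) + 1) / m - K c / m) / 2 = 1 / m / 2 := by ring
    rw [this, div_pow, div_pow, one_pow]
    have : (0 : ℝ) < 1 / m ^ 2 := by positivity
    linarith
  rw [div_eq_mul_one_div]
  exact mul_le_mul_of_nonneg_left (h8.trans h9) (sq_nonneg _)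

theorem noise (hm : 0 < m) (a : (ι → ℤ) → ι → ℝ) {A : ℝ} (ha : ∀ K, ∑ c, a K c ^ 2 ≤ A) :
    ∫⁻ ω, ENNReal.ofReal
      ((∑ c, a (fun c => cl m (ω c)) c * (ω c - cen m (cl m (ω c)))) ^ 2) ∂gp ι ≤
      ENNReal.ofReal (A / m ^ 2) := by
  let B : (ι → ℤ) → Set (ι → ℝ) := fun K => univ.pi fun c => cl m ⁻¹' {K c}
  have hI : ∀ k : ℤ, MeasurableSet (cl m ⁻¹' {k}) := fun k => meas_cl m (measurableSet_singleton k)
  have hB : ∀ K, MeasurableSet (B K) := fun K => MeasurableSet.univ_pi fun c => hI _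
  have hmem : ∀ K ω, ω ∈ B K ↔ (fun c => cl m (ω c)) = K := fun K ω => by
    simp only [B, mem_pi, mem_univ, true_implies, mem_preimage, mem_singleton_iff, funext_iff]
  have hd : Pairwise (Function.onFun Disjoint B) := fun K K' h => by
    rw [Function.onFun, Set.disjoint_left]
    intro ω h1 h2
    exact h (((hmem _ _).1 h1).symm.trans ((hmem _ _).1 h2))
  have hU : ⋃ K, B K = univ := eq_univ_of_forall fun ω => mem_iUnion.2 ⟨_, (hmem _ ω).2 rfl⟩
  rw [← setLIntegral_univ, ← hU, lintegral_iUnion hB hd]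
  calc _ ≤ ∑' K, gp ι (B K) * ENNReal.ofReal (A / m ^ 2) := by
        refine ENNReal.tsum_le_tsum fun K => ?_
        rw [setLIntegral_congr_fun (hB K) (g := fun ω => ENNReal.ofReal
          ((∑ c, a K c * (ω c - cen m (K c))) ^ 2)) fun ω hω => by
            have := (hmem _ _).1 hω
            subst this
            rfl]
        rw [cond_pi _ (fun c => hI _) (fun c => cell_pos hm _), lintegral_smul_measure,
          smul_eq_mul]
        gcongr
        refine (noise_box hm K (a K)).trans (ENNReal.ofReal_le_ofReal ?_)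
        gcongr
        exact ha K
    _ = ENNReal.ofReal (A / m ^ 2) := by
        rw [ENNReal.tsum_mul_right, ← measure_iUnion hd hB, hU, measure_univ, one_mul]

end Vale.Agent.N309X
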