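import Vale.Agent.N309X.Core
import Vale.Agent.N309X.Defs

/-!
# P309: bridge to the learners `Alg`, final bounds
-/

namespace Vale.Agent.N309X

open MeasureTheory ProbabilityTheory Set P309 Vale.Agent.P309B7 Vale.Agent.P309C9
open scoped ENNReal RealInnerProductSpace

variable {d N : ℕ} {Ω R : Type} [MeasurableSpace Ω] [MeasurableSpace R]

theorem dot_eq (x y : V d) : dot x y = ⟪x, y⟫ := (inner_sum' x y).symm

theorem answer_eq (A : Alg d N Ω) (L : Rule d N R) (ω : Ω) (r : ℕ → R)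
    (h0 : L.init (r 0) = A.init ω)
    (h1 : ∀ t p, L.step t (r (t + 2), p) = (A.stop t (ω, p), A.next t (ω, p)))
    (h2 : ∀ t q, (L.out t (r 1, q) : V d) = A.out t (ω, q)) (s : P309B7.Sph d) (x : ℕ → V d)
    (T : ℕ) : A.answer ω s x T 0 (A.init ω) = L.estimate T s x r := by
  have key : ∀ t k, (if (L.run s x r t).1.1 = true then
      (L.out (L.run s x r t).2 (r 1, (L.run s x r t).1.2) : V d)
      else A.answer ω s x k t (L.run s x r t).1.2) = A.answer ω s x (k + t) 0 (A.init ω) := by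
    intro t
    induction t with
    | zero =>
      intro k
      simp [Rule.run, h0]
    | succ t ih =>
      intro k
      rw [show k + (t + 1) = (k + 1) + t by omega, ← ih (k + 1), Rule.run]
      by_cases h : (L.run s x r t).1.1 = true
      · simp only [h, if_true]
      · simp only [h, h1, h2, Alg.answer, Bool.false_eq_true, if_false, dot_eq]
  have h := key T 0
  rw [zero_add] at h
  rw [← h, Rule.estimate]
  split_ifs with hc
  · rfl
  · rw [Alg.answer, L.run_time s x r T hc, h2]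

theorem meas_answer (A : Alg d N Ω) (k : ℕ) : ∀ (t : ℕ) (q : Ω × V d × (ℕ → V d) → Fin N),
    Measurable q → Measurable fun p : Ω × V d × (ℕ → V d) => A.answer p.1 p.2.1 p.2.2 k t (q p) := by
  induction k with
  | zero => exact fun t q hq => (A.meas.2 t).2.2.comp (measurable_fst.prodMk hq)
  | succ k ih =>
    intro t q hq
    have h : Measurable fun p : Ω × V d × (ℕ → V d) =>
        (p.1, q p, p.2.2 t, dot (p.2.2 t) p.2.1) := by
      simp only [dot_eq]
      fun_prop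
    simp only [Alg.answer]
    exact Measurable.ite (((A.meas.2 t).2.1.comp h) (measurableSet_singleton true))
      ((A.meas.2 (t + 1)).2.2.comp (measurable_fst.prodMk ((A.meas.2 t).1.comp h)))
      (ih (t + 1) _ ((A.meas.2 t).1.comp h))

theorem two_thirds {x : ℝ≥0∞} (hx : x ≠ ∞) : 2 / 3 ≤ x.toReal ↔ 2 / 3 ≤ x := by
  have h : (2 / 3 : ℝ≥0∞) = ENNReal.ofReal (2 / 3) := by
    rw [ENNReal.ofReal_div_of_pos (by norm_num)]
    simp
  rw [h, ENNReal.ofReal_le_iff_le_toReal hx]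

theorem succ_iff (hd : 1 ≤ d) (A : Alg d N Ω) (ρ : Measure Ω) [IsProbabilityMeasure ρ] (T : ℕ)
    (ε : ℝ) (L : Rule d N R) (r : Ω → ℕ → R)
    (e : ∀ ω (s : P309B7.Sph d) x, A.answer ω s x T 0 (A.init ω) = L.estimate T s x (r ω)) :
    2 / 3 ≤ A.success ρ T ε ↔ 2 / 3 ≤ ∫⁻ ω, fixed L T ε (r ω) ∂ρ := by
  have := Upper.isProb_unifSphere hd
  have h1 : MeasurePreserving (Subtype.val : P309B7.Sph d → V d) (unifSphere (Eu d))
      (unif (V d)) := by
    refine ⟨measurable_subtype_coe, ?_⟩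
    rw [unif, ProbabilityTheory.cond, Measure.restrict_univ]
    rfl
  have : IsProbabilityMeasure (unif (V d)) :=
    h1.map_eq ▸ Measure.isProbabilityMeasure_map measurable_subtype_coe.aemeasurable
  have h2 := h1.prod (MeasurePreserving.id (Measure.infinitePi fun _ : ℕ => stdGaussian (V d)))
  have : IsProbabilityMeasure (data d) := by
    unfold data
    infer_instance
  have hS : MeasurableSet {p : Ω × V d × (ℕ → V d) |
      Real.arccos (dot (A.answer p.1 p.2.1 p.2.2 T 0 (A.init p.1)) p.2.1) ≤ ε} := by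
    simp only [dot_eq]
    exact measurableSet_le (Real.continuous_arccos.measurable.comp
      ((meas_answer A T 0 _ (A.meas.1.comp measurable_fst)).inner measurable_snd.fst))
      measurable_const
  rw [Alg.success, Measure.real, two_thirds (measure_ne_top _ _), Measure.prod_apply hS]
  refine Eq.to_iff (congrArg _ (lintegral_congr fun ω => ?_))
  rw [data, ← h2.measure_preimage (measurable_prodMk_left hS).nullMeasurableSet, fixed]
  congr 1
  ext p
  simp only [mem_preimage, mem_ofPred_eq, Prod.map_fst, Prod.map_snd, id, e, dot_eq]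

theorem to_fixed (hd : 1 ≤ d) (A : Alg d N Ω) (ρ : Measure Ω) [IsProbabilityMeasure ρ] {T : ℕ}
    {ε : ℝ} (h : 2 / 3 ≤ A.success ρ T ε) :
    ∃ (L : Rule d N Ω) (r : ℕ → Ω), ((∀ t, A.out t = A.out 0) → ∀ t, L.out t = L.out 0) ∧
      2 / 3 ≤ fixed L T ε r := by
  have := Upper.isProb_unifSphere hd
  have hu : ∀ t p, A.out t p ∈ Metric.sphere (0 : V d) 1 := fun t p => by
    have h1 := A.unit t p
    rw [dot_eq, real_inner_self_eq_norm_sq] at h1
    rw [mem_sphere_zero_iff_norm]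
    exact (pow_eq_one_iff_of_nonneg (norm_nonneg _) two_ne_zero).1 h1
  let L : Rule d N Ω := ⟨A.init, fun t p => (A.stop t p, A.next t p), fun t p => ⟨_, hu t p⟩,
    A.meas.1, fun t => (A.meas.2 t).2.1.prodMk (A.meas.2 t).1,
    fun t => (A.meas.2 t).2.2.subtype_mk⟩
  rw [succ_iff hd A ρ T ε L (fun ω _ => ω) fun ω s x =>
    answer_eq A L ω (fun _ => ω) rfl (fun _ _ => rfl) (fun _ _ => rfl) s x T] at h
  obtain ⟨ω, hω⟩ := exists_lintegral_le (μ := ρ) (f := fun ω => fixed L T ε fun _ => ω)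
    (ne_top_of_le_ne_top ENNReal.one_ne_top
      ((lintegral_mono fun ω => prob_le_one).trans (by simp)))
  exact ⟨L, _, fun hA t => funext fun p => Subtype.ext (congrFun (hA t) p), h.trans hω⟩

theorem of_kernel (hd : 1 ≤ d) (K : Learner (Vec d) N) (hK : K.FixedOutput) {T : ℕ} {ε : ℝ}
    (h : K.Succeeds T ε) :
    ∃ A : Alg d N Unit, (∀ t, A.out t = A.out 0) ∧ 2 / 3 ≤ A.success (Measure.dirac ()) T ε := by
  obtain ⟨L, h1, h2⟩ := of_learner hd K hK
  obtain ⟨Ω, _, P, Sg, X, U, hE, hU⟩ := exists_experiment hd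
  obtain ⟨r, hr⟩ := (of_exp hE).exists_fixed L T ε
  rw [hE.success_eq (K := K) (ι := id) (by simpa only [hU] using h1)] at hr
  have hm : ∀ t, Measurable fun p : Unit × Fin N × V d × ℝ => L.step t (r (t + 2), p.2) :=
    fun t => (L.meas_step t).comp (measurable_const.prodMk measurable_snd)
  let A : Alg d N Unit := ⟨fun _ => L.init (r 0), fun t p => (L.step t (r (t + 2), p.2)).2,
    fun t p => (L.step t (r (t + 2), p.2)).1, fun t p => L.out t (r 1, p.2),
    fun t p => by rw [dot_eq, real_inner_self_eq_norm_sq, nrm, one_pow], measurable_const,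
    fun t => ⟨(hm t).snd, (hm t).fst, measurable_of_countable _⟩⟩
  refine ⟨A, fun t => ?_, ?_⟩
  · funext p
    simp only [A, h2 t]
  rw [succ_iff hd A _ T ε L (fun _ => r) fun ω s x =>
    answer_eq A L ω r rfl (fun _ _ => rfl) (fun _ _ => rfl) s x T, lintegral_dirac]
  exact le_trans h hr

theorem lower_all (hd : 16384 ≤ d) {ε : ℝ} (hε : 0 < ε) (hε1 : ε ≤ 1 / 2) {M T : ℕ}
    (hN : N ≤ 2 ^ M) (A : Alg d N Ω) (ρ : Measure Ω) [IsProbabilityMeasure ρ]
    (h : 2 / 3 ≤ A.success ρ T ε) :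
    d * (1 + Real.log (1 / ε) / (1 + M / (d : ℝ) ^ 2)) ≤ 5000 * T := by
  have hd' : (16384 : ℝ) ≤ d := by exact_mod_cast hd
  obtain ⟨L, r, -, hr⟩ := to_fixed (by omega) A ρ h
  have h4 := quarter (by omega) (hr.trans (fixed_le (by omega) L T hε1 r))
  obtain ⟨K, -, hK⟩ := fixed_eq L le_rfl r
  obtain ⟨C, hC⟩ : ∃ C : ℝ, C = 1 + M / (d : ℝ) ^ 2 := ⟨_, rfl⟩
  have hC1 : 1 ≤ C := by rw [hC]; exact le_add_of_nonneg_right (by positivity)
  rw [← hC]
  by_cases hΛ : 4 * ((50 + 23 * C) + 4) ≤ Real.log (1 / ε)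
  · have h1 := lower' (by linarith) hd hε hΛ (by
      calc (N : ℝ) ≤ ((2 ^ M : ℕ) : ℝ) := by exact_mod_cast hN
        _ = (2 : ℝ) ^ (M : ℝ) := by rw [Real.rpow_natCast]; push_cast; rfl
        _ ≤ _ := by
          refine Real.rpow_le_rpow_of_exponent_le (by norm_num) ?_
          rw [hC, add_mul, div_mul_cancel₀ _ (by positivity)]
          exact le_add_of_nonneg_left (by positivity)) K T (hK T ε ▸ hr :)
    rw [div_le_iff₀ (by positivity)] at h1
    have h2 : d * (Real.log (1 / ε) / C) ≤ 4672 * T := by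
      rw [← mul_div_assoc, div_le_iff₀ (by linarith)]
      have : (0 : ℝ) ≤ T := Nat.cast_nonneg T
      nlinarith
    linarith
  · have h2 : Real.log (1 / ε) / C ≤ 308 := by
      rw [div_le_iff₀ (by linarith)]
      linarith
    nlinarith

theorem upper_all (hd : 16384 ≤ d) {ε : ℝ} (hε : 0 < ε) (hε1 : ε ≤ 1 / 2) {M : ℕ}
    (hM : (d + 1) * Real.logb 2 (d / ε) + 11 * d ≤ M) :
    ∃ (A : Alg d (2 ^ M) Unit) (T : ℕ), (∀ t, A.out t = A.out 0) ∧
      2 / 3 ≤ A.success (Measure.dirac ()) T ε ∧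
      T ≤ 5000 * d * (1 + Real.log (1 / ε) /
        (1 + (M - d * Real.logb 2 (1 / ε)) / (d : ℝ) ^ 2)) := by
  have hd' : (16384 : ℝ) ≤ d := by exact_mod_cast hd
  have hd0 : (0 : ℝ) < d := by linarith
  have h1ε : 1 ≤ 1 / ε := by
    rw [le_div_iff₀ hε]
    linarith
  have hW0 : 0 ≤ Real.log (1 / ε) := Real.log_nonneg h1ε
  have hl1 : Real.logb 2 (1 / ε) ≤ Real.logb 2 (d / ε) :=
    Real.logb_le_logb_of_le (by norm_num) (by positivity) (by gcongr; linarith)
  have hl2 : Real.log (1 / ε) ≤ Real.logb 2 (1 / ε) := by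
    rw [Real.logb, le_div_iff₀ (Real.log_pos (by norm_num))]
    have := Real.log_two_lt_d9
    nlinarith
  obtain ⟨F, hF⟩ : ∃ F : ℝ, F = M - d * Real.logb 2 (1 / ε) := ⟨_, rfl⟩
  obtain ⟨W, hW⟩ : ∃ W : ℝ, W = Real.log (1 / ε) := ⟨_, rfl⟩
  have hWF : W ≤ F := by
    have := mul_le_mul_of_nonneg_left hl1 hd0.le
    rw [hF, hW]
    nlinarith
  rw [← hW] at hW0
  have hd2 : (0 : ℝ) < (d : ℝ) ^ 2 := by positivity
  have hx0 : 0 ≤ F / (d : ℝ) ^ 2 := div_nonneg (hW0.trans hWF) hd2.le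
  suffices h : ∃ T : ℕ, (T : ℝ) ≤ 5000 * d * (1 + W / (1 + F / (d : ℝ) ^ 2)) ∧
      ∃ K : Learner (Vec d) (2 ^ M), K.FixedOutput ∧ K.Succeeds T ε by
    obtain ⟨T, h1, K, h2, h3⟩ := h
    obtain ⟨A, h4, h5⟩ := of_kernel (by omega) K h2 h3
    exact ⟨A, T, h4, h5, by rw [← hF, ← hW]; exact h1⟩
  obtain ⟨x, hx⟩ : ∃ x : ℝ, x = F / (d : ℝ) ^ 2 := ⟨_, rfl⟩
  have hFx : F = x * (d : ℝ) ^ 2 := by rw [hx]; field_simp
  rw [← hx] at hx0 ⊢
  by_cases hc : x ≤ 112
  · obtain ⟨T, h1, h2⟩ := Upper.upper_bound_sharp d ε (by omega) hε hε1 M (by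
      have : 0 ≤ Real.logb 2 (d / ε) := by linarith
      nlinarith)
    refine ⟨T, h1.trans ?_, h2⟩
    rw [← hW]
    have h3 : W ≤ 113 * (W / (1 + x)) := by
      rw [← mul_div_assoc, le_div_iff₀ (by linarith)]
      nlinarith
    have h4 : 0 ≤ W / (1 + x) := by positivity
    nlinarith
  · have hc' : 1 ≤ x / 112 := by
      rw [le_div_iff₀ (by norm_num)]
      linarith
    have hB : 1 ≤ ⌊x / 112⌋₊ := Nat.le_floor (by exact_mod_cast hc')
    have hB1 : (⌊x / 112⌋₊ : ℝ) ≤ x / 112 := Nat.floor_le (by positivity)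
    have hB2 : x / 112 < ⌊x / 112⌋₊ + 1 := Nat.lt_floor_add_one _
    have hB3 : (1 : ℝ) ≤ ⌊x / 112⌋₊ := by exact_mod_cast hB
    obtain ⟨B, hBd⟩ : ∃ B, B = ⌊x / 112⌋₊ := ⟨_, rfl⟩
    rw [← hBd] at hB hB1 hB2 hB3
    have hp : 896 * (d : ℝ) ^ 2 ≤ 2 ^ d := by
      have h1 : (2 : ℝ) ^ d = Real.exp (Real.log 2 * d) := by
        rw [Real.exp_mul, Real.exp_log (by norm_num), Real.rpow_natCast]
      have h2 := Real.pow_div_factorial_le_exp (x := Real.log 2 * d)
        (mul_nonneg (Real.log_nonneg (by norm_num)) hd0.le) 4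
      have h3 : (d : ℝ) / 2 ≤ Real.log 2 * d := by
        have := Real.log_two_gt_d9
        nlinarith
      have h4 := pow_le_pow_left₀ (by positivity) h3 4
      rw [h1]
      refine le_trans ?_ h2
      rw [le_div_iff₀ (by positivity)]
      refine le_trans ?_ h4
      have h5 : ((Nat.factorial 4 : ℕ) : ℝ) = 24 := by norm_num [Nat.factorial]
      rw [h5]
      have h6 : (16384 : ℝ) ^ 2 ≤ (d : ℝ) ^ 2 := by gcongr
      nlinarith
    obtain ⟨T, h1, h2⟩ := core (d := d) (B := B) (M := M) (by omega) hB hε hε1 (by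
      rw [← hW]
      have h3 : x ≤ 224 * B := by linarith
      have h4 := mul_le_mul_of_nonneg_right h3 hd2.le
      have h5 := mul_le_mul_of_nonneg_left hp (by linarith : (0 : ℝ) ≤ B)
      linarith) (by
      have h3 : 112 * B ≤ x := by linarith
      have h4 := mul_le_mul_of_nonneg_right h3 hd2.le
      linarith)
    refine ⟨T, h1.trans ?_, h2⟩
    rw [← hW]
    have h3 : W / B ≤ 448 * (W / (1 + x)) := by
      rw [← mul_div_assoc, div_le_div_iff₀ (by linarith) (by linarith)]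
      have : 1 + x ≤ 448 * B := by linarith
      nlinarith
    have h4 : 0 ≤ W / (1 + x) := by positivity
    nlinarith

theorem never (hd : 2 ≤ d) {ε : ℝ} (hε : 0 < ε) {M T : ℕ}
    (hM : (M : ℝ) ≤ (d - 1) * Real.logb 2 (1 / ε) - 4 * d) (hN : N ≤ 2 ^ M) (A : Alg d N Ω)
    (hA : ∀ t, A.out t = A.out 0) (ρ : Measure Ω) [IsProbabilityMeasure ρ] :
    A.success ρ T ε < 2 / 3 := by
  by_contra h
  obtain ⟨L, r, h1, hr⟩ := to_fixed (by omega) A ρ (not_lt.1 h)
  obtain ⟨K, h2, hK⟩ := fixed_eq L hN r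
  have h3 := Upper.leastHorizon_eq_top d ε hd hε M hM
  simp only [leastHorizon, iInf_eq_top] at h3
  exact ENat.natCast_ne_top T (h3 T ⟨K, h2 (h1 hA), (hK T ε ▸ hr :)⟩)

theorem half {ε : ℝ} (hd : 0 < d) (hε : 0 < ε) (hε1 : ε ≤ 1 / 2) {M : ℕ}
    (hM : 2 * d * Real.logb 2 (1 / ε) ≤ M) :
    5000 * d * (1 + Real.log (1 / ε) / (1 + (M - d * Real.logb 2 (1 / ε)) / (d : ℝ) ^ 2)) ≤
      10000 * d * (1 + Real.log (1 / ε) / (1 + M / (d : ℝ) ^ 2)) := by
  have hd0 : (0 : ℝ) < d := by exact_mod_cast hd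
  have hW : 0 ≤ Real.log (1 / ε) := Real.log_nonneg (by rw [le_div_iff₀ hε]; linarith)
  have h1 : M / (d : ℝ) ^ 2 ≤ 2 * ((M - d * Real.logb 2 (1 / ε)) / (d : ℝ) ^ 2) := by
    rw [← mul_div_assoc]
    gcongr
    linarith
  have h2 : (0 : ℝ) ≤ M / (d : ℝ) ^ 2 := by positivity
  have h3 : Real.log (1 / ε) / (1 + (M - d * Real.logb 2 (1 / ε)) / (d : ℝ) ^ 2) ≤
      2 * (Real.log (1 / ε) / (1 + M / (d : ℝ) ^ 2)) := by
    rw [← mul_div_assoc, div_le_div_iff₀ (by linarith) (by linarith)]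
    nlinarith
  nlinarith

theorem q_one {c ε : ℝ} (hc : 0 < c) (hd : 0 < d) (hε : 0 < ε) (hε1 : ε ≤ 1 / 2) {M T : ℕ}
    (hM : (M : ℝ) ≤ c * (d : ℝ) ^ 2)
    (h : d * (1 + Real.log (1 / ε) / (1 + M / (d : ℝ) ^ 2)) ≤ 5000 * T) :
    1 / (5000 * (1 + c)) * d * Real.log (1 / ε) ≤ T := by
  have hd0 : (0 : ℝ) < d := by exact_mod_cast hd
  have hW : 0 ≤ Real.log (1 / ε) := Real.log_nonneg (by rw [le_div_iff₀ hε]; linarith)
  have h1 : M / (d : ℝ) ^ 2 ≤ c := by rwa [div_le_iff₀ (by positivity)]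
  have h2 : Real.log (1 / ε) / (1 + c) ≤ Real.log (1 / ε) / (1 + M / (d : ℝ) ^ 2) := by gcongr
  have h3 : 1 / (5000 * (1 + c)) * d * Real.log (1 / ε) =
      d * (Real.log (1 / ε) / (1 + c)) / 5000 := by field_simp
  rw [h3]
  nlinarith

end Vale.Agent.N309X
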