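import Vale.Agent.N309X.Block

/-!
# P309: the block learner with quantised rows
-/

namespace Vale.Agent.N309X

open MeasureTheory ProbabilityTheory Set P309
open scoped ENNReal RealInnerProductSpace

variable {d m : ℕ}

theorem inner_sum' (x e : Vec d) : ⟪x, e⟫ = ∑ l, x l * e l := by
  rw [PiLp.inner_apply]
  exact Finset.sum_congr rfl fun l _ => by simp [mul_comm]

/-- one block -/
theorem one_blk (hm : 64 ≤ m) (hd : 1 ≤ d) {p : ℕ} (hp : 1 ≤ p) {σ : ℝ} (hσ : 0 < σ)
    (T : Finset ((Fin d → ℤ) × ℤ)) (code : (Fin d → ℤ) × ℤ → T)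
    (hT : ∀ x : (Fin d → ℤ) × ℤ, ∑ a, (x.1 a : ℝ) ^ 2 ≤ 14 * d * m ^ 2 →
      |x.2| ≤ 4 * d * p → (code x : (Fin d → ℤ) × ℤ) = x)
    (z s : Vec d) (hz : ‖s - z‖ ≤ σ) (Φ : Vec d → ℝ≥0∞) (hΦ1 : ∀ w, Φ w ≤ 1) {a c : ℝ}
    (ha : 0 ≤ a) (hc : 0 ≤ c) (hΦ : ∀ w, Φ w ≤ ENNReal.ofReal (a * ‖w - s‖ ^ 2 + c)) :
    ∫⁻ G, Φ (z + est m
      (fun k : Fin (2 * d) × Fin d => (code (fun l => cl m (G k.1 l),
        ⌊(⟪G k.1, s⟫ - ⟪G k.1, z⟫) / (σ / p)⌋) : (Fin d → ℤ) × ℤ).1 k.2)
      fun t => σ / p * (code (fun l => cl m (G t l),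
        ⌊(⟪G t, s⟫ - ⟪G t, z⟫) / (σ / p)⌋) : (Fin d → ℤ) × ℤ).2) ∂rows (Vec d) (2 * d) ≤
      ENNReal.ofReal (3 * d * Real.exp (-(d : ℝ)) +
        a * (3200 * ‖s - z‖ ^ 2 / m ^ 2 + 6400 * d * (σ / p) ^ 2) + c) := by
  have hd' : (1 : ℝ) ≤ d := by exact_mod_cast hd
  have hp' : (1 : ℝ) ≤ p := by exact_mod_cast hp
  have hm' : (64 : ℝ) ≤ m := by exact_mod_cast hm
  have hγ : 0 < σ / p := by positivity
  obtain ⟨B, N, hB, hN, h1, h2, h3⟩ := est_bound hm hd (s - z)
  have hmeas : Measurable fun G : Fin (2 * d) → Vec d => Φ (z + est m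
      (fun k : Fin (2 * d) × Fin d => (code (fun l => cl m (G k.1 l),
        ⌊(⟪G k.1, s⟫ - ⟪G k.1, z⟫) / (σ / p)⌋) : (Fin d → ℤ) × ℤ).1 k.2)
      fun t => σ / p * (code (fun l => cl m (G t l),
        ⌊(⟪G t, s⟫ - ⟪G t, z⟫) / (σ / p)⌋) : (Fin d → ℤ) × ℤ).2) := by
    have k1 : Measurable fun b : Fin (2 * d) → (Fin d → ℤ) × ℤ => Φ (z + est m
        (fun k : Fin (2 * d) × Fin d => (code (b k.1) : (Fin d → ℤ) × ℤ).1 k.2)
        fun t => σ / p * (code (b t) : (Fin d → ℤ) × ℤ).2) := measurable_of_countable _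
    have k2 : Measurable fun (G : Fin (2 * d) → Vec d) (t : Fin (2 * d)) =>
        ((fun l => cl m (G t l), ⌊(⟪G t, s⟫ - ⟪G t, z⟫) / (σ / p)⌋) : (Fin d → ℤ) × ℤ) :=
      measurable_pi_lambda _ fun t => Measurable.prodMk
        (measurable_pi_lambda _ fun l => (meas_cl m).comp (by fun_prop)) (by fun_prop)
    have k3 := k1.comp k2
    simp only [Function.comp_def] at k3
    exact k3
  rw [← mp_rows.lintegral_comp hmeas]
  calc _ ≤ ∫⁻ ω, (B.indicator 1 ω + (ENNReal.ofReal a * N ω +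
        ENNReal.ofReal (a * (6400 * d * (σ / p) ^ 2) + c))) ∂gp _ := by
        refine lintegral_mono fun ω => ?_
        by_cases hω : ω ∈ B
        · rw [indicator_of_mem hω]
          exact (hΦ1 _).trans le_self_add
        rw [indicator_of_notMem hω, zero_add]
        obtain ⟨h4, h5⟩ := h3 ω hω
        have hr : ∀ t, ⟪(WithLp.toLp 2 fun l => ω (t, l) : Vec d), s⟫ -
            ⟪(WithLp.toLp 2 fun l => ω (t, l) : Vec d), z⟫ = ∑ l, ω (t, l) * (s - z) l := fun t => by
          rw [← inner_sub_right, inner_sum']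
        have hcode : ∀ t (r : ℝ), r = ∑ l, ω (t, l) * (s - z) l →
            (code (fun l => cl m (ω (t, l)), ⌊r / (σ / p)⌋) : (Fin d → ℤ) × ℤ) =
              (fun l => cl m (ω (t, l)), ⌊r / (σ / p)⌋) := fun t r hr' => by
          refine hT _ ?_ ?_
          · calc ∑ a, ((cl m (ω (t, a)) : ℤ) : ℝ) ^ 2 ≤ ∑ a, (2 * (m * ω (t, a)) ^ 2 + 2) :=
                  Finset.sum_le_sum fun a _ => floor_sq_le _
              _ = 2 * m ^ 2 * ∑ a, ω (t, a) ^ 2 + 2 * d := by
                  simp only [Finset.sum_add_distrib, Finset.sum_const, Finset.card_univ,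
                    Fintype.card_fin, nsmul_eq_mul, Finset.mul_sum, mul_pow, mul_assoc]
                  ring
              _ ≤ 14 * d * m ^ 2 := by
                  have h6 : (1 : ℝ) ≤ m ^ 2 := by nlinarith
                  have h7 := mul_le_mul_of_nonneg_left (h4 t) (by positivity : (0 : ℝ) ≤ 2 * m ^ 2)
                  nlinarith
          · have h6 : |r| ≤ 3 * d * σ := by
              rw [hr', ← hr t, ← inner_sub_right]
              refine (abs_real_inner_le_norm _ _).trans (mul_le_mul ?_ hz (norm_nonneg _)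
                (by positivity))
              refine le_of_sq_le_sq ?_ (by positivity)
              rw [nsq]
              refine (h4 t).trans ?_
              nlinarith
            have h7 : |r / (σ / p)| ≤ 3 * d * p := by
              rw [abs_div, abs_of_pos hγ, div_le_iff₀ hγ]
              refine h6.trans (le_of_eq ?_)
              field_simp
            have h8 : |((⌊r / (σ / p)⌋ : ℤ) : ℝ)| ≤ 4 * d * p := by
              have h9 := Int.floor_le (r / (σ / p))
              have h10 := Int.lt_floor_add_one (r / (σ / p))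
              have h11 : (1 : ℝ) ≤ d * p := by nlinarith
              rw [abs_le] at h7 ⊢
              constructor <;> nlinarith [h7.1, h7.2]
            exact_mod_cast h8
        simp only [hr, hcode _ _ rfl]
        refine (hΦ _).trans ?_
        have h6 := h5 (fun t => σ / p * (⌊(∑ l, ω (t, l) * (s - z) l) / (σ / p)⌋ : ℤ)) (σ / p)
          fun t => by
            set r := ∑ l, ω (t, l) * (s - z) l
            have h9 := mul_le_mul_of_nonneg_left (Int.floor_le (r / (σ / p))) hγ.le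
            have h10 := mul_le_mul_of_nonneg_left (Int.lt_floor_add_one (r / (σ / p))).le hγ.le
            rw [mul_div_cancel₀ _ hγ.ne'] at h9 h10
            rw [abs_le]
            constructor <;> linarith
        rw [show ∀ v : Vec d, z + v - s = v - (s - z) from fun v => by abel,
          ENNReal.ofReal_add (by positivity) hc, ENNReal.ofReal_add (by positivity) hc,
          ENNReal.ofReal_mul ha, ENNReal.ofReal_mul ha, ← add_assoc, ← mul_add]
        gcongr
    _ = gp _ B + (ENNReal.ofReal a * ∫⁻ ω, N ω ∂gp _ +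
        ENNReal.ofReal (a * (6400 * d * (σ / p) ^ 2) + c)) := by
        rw [lintegral_add_left (measurable_one.indicator hB), lintegral_indicator_one hB,
          lintegral_add_right _ measurable_const, lintegral_const_mul _ hN]
        simp
    _ ≤ ENNReal.ofReal (3 * d * Real.exp (-(d : ℝ))) + (ENNReal.ofReal a *
        ENNReal.ofReal (3200 * ‖s - z‖ ^ 2 / m ^ 2) +
        ENNReal.ofReal (a * (6400 * d * (σ / p) ^ 2) + c)) := by gcongr
    _ = _ := by
        rw [← ENNReal.ofReal_mul ha, ← ENNReal.ofReal_add (by positivity) (by positivity),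
          ← ENNReal.ofReal_add (by positivity) (by positivity)]
        congr 1
        ring

theorem blk_learner (hm : 320 ≤ m) (hd : 1 ≤ d) {p : ℕ} (hp : 1 ≤ p) {ε δ β : ℝ} (hε : 0 < ε)
    (hε1 : ε ≤ 1 / 2) (hδ : 0 < δ) (hδ1 : δ ≤ 1) {J Nz N : ℕ}
    (hJ : 8 * (80 / m : ℝ) ^ J ≤ ε / 4) (hNz : (1 + 6 / δ) ^ d ≤ (Nz : ℝ))
    (hβ : 3 * d * Real.exp (-(d : ℝ)) + 2 * d * (m / p) ^ 2 +
      2 * (δ / (8 * (80 / m : ℝ) ^ J)) ^ 2 ≤ β) (hJβ : J * β ≤ 1 / 4)
    (hN : (Nz : ℝ) * ((6 * Real.exp 14 * m) ^ d * (8 * d * p + 1)) ^ (2 * d) ≤ N) :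
    ∃ K : Learner (Vec d) N, K.FixedOutput ∧ K.Succeeds (J * (2 * d)) ε := by
  classical
  have hm' : (320 : ℝ) ≤ m := by exact_mod_cast hm
  have hp' : (1 : ℝ) ≤ p := by exact_mod_cast hp
  obtain ⟨θ, hθ⟩ : ∃ θ : ℝ, θ = 80 / m := ⟨_, rfl⟩
  rw [← hθ] at hJ hβ
  have hθ0 : 0 < θ := by rw [hθ]; positivity
  have hθ1 : θ ≤ 1 / 4 := by rw [hθ, div_le_iff₀ (by positivity)]; linarith
  have hθm : θ * m = 80 := by rw [hθ]; field_simp
  have hβ0 : 0 ≤ β := le_trans (by positivity) hβ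
  obtain ⟨pt, rd, -, hpt⟩ := Upper.exists_rounding d hδ hNz
  obtain ⟨S, hS, hSc⟩ := exists_lattice_finset d m (by omega)
  let T : Finset ((Fin d → ℤ) × ℤ) := S ×ˢ Finset.Icc (-(4 * d * p : ℤ)) (4 * d * p)
  have hmem : ∀ x : (Fin d → ℤ) × ℤ, ∑ a, (x.1 a : ℝ) ^ 2 ≤ 14 * d * m ^ 2 →
      |x.2| ≤ 4 * d * p → x ∈ T := fun x h1 h2 =>
    Finset.mem_product.2 ⟨(hS _).2 h1, Finset.mem_Icc.2 (abs_le.1 h2)⟩
  have h0 : ((0, 0) : (Fin d → ℤ) × ℤ) ∈ T := hmem _ (by simp; positivity) (by simp; positivity)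
  have : Nonempty T := ⟨⟨_, h0⟩⟩
  let code : (Fin d → ℤ) × ℤ → T := fun x => if h : x ∈ T then ⟨x, h⟩ else ⟨_, h0⟩
  have hT : ∀ x : (Fin d → ℤ) × ℤ, ∑ a, (x.1 a : ℝ) ^ 2 ≤ 14 * d * m ^ 2 →
      |x.2| ≤ 4 * d * p → (code x : (Fin d → ℤ) × ℤ) = x := fun x h1 h2 => by
    simp only [code, dif_pos (hmem x h1 h2)]
  let sym : ℕ → Fin Nz → Vec d × ℝ → T := fun j z q =>
    code (fun l => cl m (q.1 l), ⌊(q.2 - ⟪q.1, pt z⟫) / (8 * θ ^ j / p)⌋)
  let upd : ℕ → Fin Nz → (Fin (2 * d) → T) → Fin Nz := fun j z b =>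
    rd (pt z + est m (fun k : Fin (2 * d) × Fin d => (b k.1 : (Fin d → ℤ) × ℤ).1 k.2)
      fun t => 8 * θ ^ j / p * (b t : (Fin d → ℤ) × ℤ).2)
  have hsym : ∀ j z, Measurable (sym j z) := fun j z =>
    (measurable_of_countable code).comp (Measurable.prodMk
      (measurable_pi_lambda _ fun l => (meas_cl m).comp (by fun_prop)) (by fun_prop))
  let u : P309.Sph d := ⟨EuclideanSpace.single ⟨0, hd⟩ 1, by simp⟩
  have hcard : Fintype.card (Fin Nz) * Fintype.card T ^ (2 * d) ≤ N := by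
    have h1 : (Fintype.card T : ℝ) ≤ (6 * Real.exp 14 * m) ^ d * (8 * d * p + 1) := by
      rw [Fintype.card_coe, Finset.card_product, Int.card_Icc, Nat.cast_mul]
      refine mul_le_mul hSc (le_of_eq ?_) (Nat.cast_nonneg _) (by positivity)
      have : (4 * d * p + 1 - -(4 * d * p) : ℤ) = ((8 * d * p + 1 : ℕ) : ℤ) := by
        push_cast
        ring
      rw [this, Int.toNat_natCast]
      push_cast
      ring
    have h2 : ((Fintype.card (Fin Nz) * Fintype.card T ^ (2 * d) : ℕ) : ℝ) ≤ N := by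
      refine le_trans ?_ hN
      push_cast
      rw [Fintype.card_fin]
      gcongr
    exact_mod_cast h2
  obtain ⟨K, hK, hw⟩ := machine (by omega) sym hsym upd (fun z => Upper.dirn u (pt z)) (rd 0) hcard
  refine ⟨K, hK, LMS.succeeds_of_forall hd fun s => ?_⟩
  have hs : ‖(s : Vec d)‖ = 1 := by simp
  have key : ∀ k j z, j + k = J → lose sym upd (fun z => Upper.dirn u (pt z)) ε s k j z ≤
      ENNReal.ofReal (‖pt z - s‖ ^ 2 / (8 * θ ^ j) ^ 2 + k * β) := by
    intro k
    induction k with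
    | zero =>
      intro j z hj
      rw [add_zero] at hj
      subst hj
      rw [lose]
      split_ifs with h
      · exact zero_le
      · rw [ENNReal.one_le_ofReal, Nat.cast_zero, zero_mul, add_zero, one_le_div (by positivity)]
        have h1 : ε / 4 < ‖pt z - s‖ := lt_of_not_ge fun h2 => h (Upper.dirn_good u hε hε1 hs h2)
        gcongr
        linarith
    | succ k ih =>
      intro j z hj
      have hσ : 0 < 8 * θ ^ j := by positivity
      by_cases hz : ‖(s : Vec d) - pt z‖ ≤ 8 * θ ^ j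
      swap
      · refine (lose_le_one _ _ _ _ _ _ _ _).trans ?_
        rw [ENNReal.one_le_ofReal]
        have h1 : 1 ≤ ‖pt z - s‖ ^ 2 / (8 * θ ^ j) ^ 2 := by
          rw [one_le_div (by positivity), norm_sub_rev]
          gcongr
          exact (not_le.1 hz).le
        have : 0 ≤ ((k + 1 : ℕ) : ℝ) * β := by positivity
        linarith
      rw [lose]
      have hσ' : 0 < 8 * θ ^ (j + 1) := by positivity
      have hσ2 : 8 * θ ^ (j + 1) ≤ 2 := by
        have : θ ^ j ≤ 1 := pow_le_one₀ hθ0.le (by linarith)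
        rw [pow_succ]
        nlinarith
      have h1 := one_blk (by omega) hd hp hσ T code hT (pt z) s hz
        (fun w => lose sym upd (fun z => Upper.dirn u (pt z)) ε s k (j + 1) (rd w))
        (fun w => lose_le_one _ _ _ _ _ _ _ _) (a := 2 / (8 * θ ^ (j + 1)) ^ 2)
        (c := 2 * (δ / (8 * θ ^ J)) ^ 2 + k * β) (by positivity) (by positivity) fun w => by
          by_cases hw2 : ‖w - s‖ ≤ 2
          · refine (ih (j + 1) (rd w) (by omega)).trans (ENNReal.ofReal_le_ofReal ?_)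
            have h2 : ‖w‖ ≤ 3 := by
              have := norm_add_le (w - s) (s : Vec d)
              rw [sub_add_cancel, hs] at this
              linarith
            have h3 := hpt w h2
            have h4 : ‖pt (rd w) - s‖ ≤ δ + ‖w - s‖ := by
              have := norm_add_le (pt (rd w) - w) (w - s)
              rw [sub_add_sub_cancel] at this
              linarith
            have h5 : ‖pt (rd w) - s‖ ^ 2 ≤ 2 * ‖w - s‖ ^ 2 + 2 * δ ^ 2 := by
              have := pow_le_pow_left₀ (norm_nonneg _) h4 2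
              nlinarith [sq_nonneg (δ - ‖w - s‖)]
            have h6 : δ ^ 2 / (8 * θ ^ (j + 1)) ^ 2 ≤ (δ / (8 * θ ^ J)) ^ 2 := by
              rw [div_pow]
              have : θ ^ J ≤ θ ^ (j + 1) := pow_le_pow_of_le_one hθ0.le (by linarith) (by omega)
              gcongr
            have h7 := div_le_div_of_nonneg_right h5 (sq_nonneg (8 * θ ^ (j + 1)))
            have h8 : (2 * ‖w - s‖ ^ 2 + 2 * δ ^ 2) / (8 * θ ^ (j + 1)) ^ 2 =
                2 / (8 * θ ^ (j + 1)) ^ 2 * ‖w - s‖ ^ 2 + 2 * (δ ^ 2 / (8 * θ ^ (j + 1)) ^ 2) := by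
              ring
            linarith
          · refine (lose_le_one _ _ _ _ _ _ _ _).trans ?_
            rw [ENNReal.one_le_ofReal]
            have h2 : 1 ≤ 2 / (8 * θ ^ (j + 1)) ^ 2 * ‖w - s‖ ^ 2 := by
              rw [div_mul_eq_mul_div, one_le_div (by positivity)]
              nlinarith [not_le.1 hw2]
            have : 0 ≤ 2 * (δ / (8 * θ ^ J)) ^ 2 + k * β := by positivity
            linarith
      refine h1.trans (ENNReal.ofReal_le_ofReal ?_)
      have hm2 : (m : ℝ) = 80 / θ := by rw [← hθm]; field_simp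
      have h2 : 2 / (8 * θ ^ (j + 1)) ^ 2 * (3200 * ‖(s : Vec d) - pt z‖ ^ 2 / m ^ 2 +
          6400 * d * (8 * θ ^ j / p) ^ 2) =
          ‖pt z - s‖ ^ 2 / (8 * θ ^ j) ^ 2 + 2 * d * (m / p) ^ 2 := by
        rw [norm_sub_rev, hm2]
        field_simp
        ring
      rw [h2]
      push_cast
      linarith
  have h1 := key J 0 (rd 0) (zero_add _)
  have h2 : ‖pt (rd 0) - s‖ ≤ 2 := by
    have h3 := hpt 0 (by simp)
    rw [sub_zero] at h3
    have := norm_sub_le (pt (rd 0)) (s : Vec d)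
    linarith
  have h3 : ‖pt (rd 0) - s‖ ^ 2 / (8 * θ ^ 0) ^ 2 + J * β ≤ 1 / 3 := by
    have := pow_le_pow_left₀ (norm_nonneg _) h2 2
    rw [pow_zero]
    linarith
  have h4 : ENNReal.ofReal (1 / 3) = 1 / 3 := by
    rw [ENNReal.ofReal_div_of_pos (by norm_num)]
    simp
  have h5 := (hw ε s J).trans (add_le_add le_rfl
    (h1.trans ((ENNReal.ofReal_le_ofReal h3).trans h4.le)))
  have e1 : (1 : ℝ≥0∞) = 2 / 3 + 1 / 3 := by
    rw [← ENNReal.add_div]
    norm_num
    exact (ENNReal.div_self (by norm_num) (by norm_num)).symm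
  exact (ENNReal.add_le_add_iff_right (by simp)).mp (e1.symm.le.trans h5)

end Vale.Agent.N309X
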